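import Vale.Agent.P275BC.Defs

/-! Betti side of P275: the blocks as propositions. -/

namespace P275BC

open MvPolynomial Matrix

/-- A cell of `Yh n g`. -/
def GCell (n g : ℕ) (S : Set (Ix n g → ℂ)) : Prop :=
  ∃ (a b : ℕ) (c : Cell S (Fin a) (Fin b)) (Ω : Matrix (Fin a) (Fin a) ℂ),
    a + 2 * b = 2 * g * n ^ 2 ∧ S ⊆ Yh n g ∧ c.Eqv (wT n g) ∧
    (∀ k e, c.Mon fun x => (mt x k e).det) ∧ (∀ a, c.Mon fun x => mu x a a) ∧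
    c.LogC (omC n g) Ω

/-- Bruhat, handles, Deodhar. -/
def CELLS : Prop := ∀ n g, Pav (GCell n g) (Yh n g)

/-- Monomial equations cut a cell into cells. -/
def TQ1 : Prop :=
  ∀ (ι ρ L : Type) [Fintype ρ] [Fintype L] (W : ι → ρ → ℤ) (S : Set (ι → ℂ)) (a b : ℕ)
    (c : Cell S (Fin a) (Fin b)) (f : L → (ι → ℂ) → ℂ) (v : L → ℂ), c.Eqv W →
    (∀ l, c.Mon (f l)) → Stb W {x ∈ S | ∀ l, f l x = v l} →
    Pav (fun S2 => ∃ (a2 : ℕ) (c2 : Cell S2 (Fin a2) (Fin b)), a ≤ a2 + Fintype.card L ∧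
      S2 ⊆ {x ∈ S | ∀ l, f l x = v l} ∧ c2.Eqv W ∧ ∀ i, c2.Mon fun x => c.ψ x (Sum.inl i))
      {x ∈ S | ∀ l, f l x = v l}

/-- Normal form: the first coordinates trivialise the action, the others are invariant. -/
def Cell.NF {ι ρ α β : Type} [Fintype ρ] [DecidableEq ρ] {S : Set (ι → ℂ)}
    (c : Cell S (ρ ⊕ α) β) (W : ι → ρ → ℤ) : Prop :=
  Stb W S ∧ (∀ l, SI W S (Pi.single l 1) fun x => c.ψ x (Sum.inl (Sum.inl l))) ∧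
    (∀ i, SI W S 0 fun x => c.ψ x (Sum.inl (Sum.inr i))) ∧ ∀ k, SI W S 0 fun x => c.ψ x (Sum.inr k)

/-- A cell with a free torus action has a normal form. -/
def TQ2 : Prop :=
  ∀ (ι : Type) (r : ℕ) (W : ι → Fin r → ℤ) (S : Set (ι → ℂ)) (a b : ℕ)
    (c : Cell S (Fin a) (Fin b)), c.Eqv W → (∀ τ, ∀ x ∈ S, actW W τ x = x → τ = 1) →
    ∃ (a2 : ℕ) (c2 : Cell S (Fin r ⊕ Fin a2) (Fin b)), a = r + a2 ∧ c2.NF W ∧
      ∀ i, c2.Mon fun x => c.ψ x (Sum.inl i)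

/-- The slice: first torus coordinates equal to one. -/
def slc {ρ α β : Type} (w : α ⊕ β → ℂ) : (ρ ⊕ α) ⊕ β → ℂ :=
  Sum.elim (Sum.elim (fun _ => 1) fun i => w (Sum.inl i)) fun k => w (Sum.inr k)

/-- Descent of pavings and of cells in normal form along a quotient package. -/
def TQ3 : Prop :=
  ∀ (ι κ ρ : Type) [Fintype ι] [Fintype ρ] [DecidableEq ρ] (W : ι → ρ → ℤ) (R : Set (ι → ℂ))
    (q : κ → MvPolynomial ι ℂ), QP (Orb W) R q →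
    (∀ (c : Set (ι → ℂ) → Prop) (Y : Set (ι → ℂ)), (∀ S, c S → Stb W S ∧ S ⊆ R) → Pav c Y →
      Pav (fun S' => ∃ S, c S ∧ S' = qm q '' S) (qm q '' Y)) ∧
    ∀ (α β : Type) (S : Set (ι → ℂ)) (c : Cell S (ρ ⊕ α) β), S ⊆ R → c.NF W →
      ∃ c' : Cell (qm q '' S) α β, ∀ w, c'.φ w = qm q (c.φ (slc w))

/-- Linear algebra at a point of `Rt`. -/
def RK : Prop :=
  ∀ (n g : ℕ) (t : Fin n → ℂ) (x : Ix n g → ℂ), 0 < n → Gnc t → x ∈ Rt g t →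
    (∀ E : Submodule ℂ (Fin n → ℂ), (∀ k b, ∀ v ∈ E, mt x k b *ᵥ v ∈ E) → E = ⊥ ∨ E = ⊤) ∧
    (∀ M : Matrix (Fin n) (Fin n) ℂ, (∀ k b, M * mt x k b = mt x k b * M) →
      ∃ c : ℂ, M = c • (1 : Matrix (Fin n) (Fin n) ℂ)) ∧
    ∃ (V : Submodule ℂ (Ix n g → ℂ)) (B : LinearMap.BilinForm ℂ (Ix n g → ℂ)),
      (∀ u, u ∈ V ↔ V1 x u) ∧ (∀ u v, B u v = om x u v) ∧ B.IsAlt ∧
      2 * Module.finrank ℂ V + 4 * g + n * (n + 1) = 4 * g * n ^ 2 + 2 ∧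
      ∀ u ∈ V, (∀ v ∈ V, B u v = 0) ↔ ∃ ξ : Matrix (Fin n) (Fin n) ℂ, (∀ a c, c < a → ξ a c = 0) ∧
        ∀ k b, mt u k b = ξ * mt x k b - mt x k b * ξ

/-- The logarithmic form on a cell of `Rt` is nondegenerate transversally to the torus orbits. -/
def ND : Prop :=
  ∀ (r g a b : ℕ) (t : Fin (r + 1) → ℂ) (S : Set (Ix (r + 1) g → ℂ))
    (c : Cell S (Fin r ⊕ Fin a) (Fin b)) (Ω : Matrix (Fin r ⊕ Fin a) (Fin r ⊕ Fin a) ℂ),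
    Gnc t → S ⊆ Rt g t → c.NF (wA r g) → c.LogC (omC (r + 1) g) Ω →
    2 * g * (r + 1) ^ 2 ≤ a + 2 * b + 2 * r + 2 * g →
    a + 2 * b + 2 * r + 2 * g = 2 * g * (r + 1) ^ 2 ∧
      (Ω.submatrix Sum.inr Sum.inr).det ≠ 0 ∧
      (Ω.submatrix Sum.inr Sum.inr)ᵀ = -Ω.submatrix Sum.inr Sum.inr

/-- A cell of the quotient `Rt / T`, with a lift on which the 2-form is a nondegenerate constant
logarithmic form. -/
def QCell {κ : Type} (r g : ℕ) (t : Fin (r + 1) → ℂ) (q : κ → MvPolynomial (Ix (r + 1) g) ℂ)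
    (S : Set (κ → ℂ)) : Prop :=
  ∃ (a b : ℕ) (c : Cell S (Fin a) (Fin b)) (l : (Fin a ⊕ Fin b → ℂ) → Ix (r + 1) g → ℂ)
    (Ω : Matrix (Fin a) (Fin a) ℂ), a + 2 * b + 2 * r + 2 * g = 2 * g * (r + 1) ^ 2 ∧
    (∀ i, Reg (Tor (Fin a) (Fin b)) fun w => l w i) ∧
    (∀ w ∈ Tor (Fin a) (Fin b), l w ∈ Rt g t ∧ c.φ w = qm q (l w)) ∧ Ω.det ≠ 0 ∧ Ωᵀ = -Ω ∧
    ∀ w ∈ Tor (Fin a) (Fin b), ∀ u v, om (l w) (fderiv ℂ l w u) (fderiv ℂ l w v) =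
      ∑ i, ∑ k, Ω i k * (u (Sum.inl i) / w (Sum.inl i) * (v (Sum.inl k) / w (Sum.inl k)))

/-- The output of the cell block. -/
def BCELL : Prop :=
  ∀ (r g : ℕ) (t : Fin (r + 1) → ℂ) (κ : Type) (q : κ → MvPolynomial (Ix (r + 1) g) ℂ), Gnc t →
    QP (Orb (wA r g)) (Rt g t) q → Pav (QCell r g t q) (qm q '' Rt g t)

/-- Tuples without invariant coordinate subspace. -/
def Con (n g : ℕ) : Set (Ix n g → ℂ) :=
  {x | ∀ s : Finset (Fin n), s.Nonempty → s ≠ Finset.univ →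
    ∃ k b a c, a ∈ s ∧ c ∉ s ∧ x (k, b, a, c) ≠ 0}

/-- Closed walks give a quotient package for the adjoint torus. -/
def QV : Prop :=
  ∀ r g : ℕ, (∀ τ, ∀ x ∈ Con (r + 1) g, actW (wA r g) τ x = x → τ = 1) ∧
    ∃ (M : ℕ) (q : Fin M → MvPolynomial (Ix (r + 1) g) ℂ), QP (Orb (wA r g)) (Con (r + 1) g) q

/-- Irreducible tuples. -/
def Irr (n g : ℕ) : Set (Ix n g → ℂ) :=
  {x | ∀ E : Submodule ℂ (Fin n → ℂ), (∀ k b, ∀ v ∈ E, mt x k b *ᵥ v ∈ E) → E = ⊥ ∨ E = ⊤}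

/-- Traces of words give a quotient package for conjugation on `Rz`. -/
def XB : Prop :=
  ∀ (n g : ℕ) (ζ : ℂ), IsPrimitiveRoot ζ n →
    ∃ (M : ℕ) (q : Fin M → MvPolynomial (Ix n g) ℂ), QP OrbG (Rz n g ζ) q

/-- The image of a closed stable set under a quotient package is Zariski locally closed. -/
def QLC : Prop :=
  ∀ (ι κ : Type) [Fintype ι] (r : (ι → ℂ) → (ι → ℂ) → Prop) (R : Set (ι → ℂ))
    (q : κ → MvPolynomial ι ℂ), QP r R q → ZC R → (∀ x ∈ R, ∀ y, r x y → y ∈ R) →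
    ∃ A B : Set (κ → ℂ), ZC A ∧ ZC B ∧ qm q '' R = A \ B

end P275BC
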