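import Vale.Agent.P275BC.Walk
import Vale.Agent.P275BC.Props

/-! The walk over all the handles. -/

namespace P275BC

open Matrix Equiv HG

variable {n g : ℕ} {κ : Type} {S : Set (Ix n g → ℂ)} {lab : Fin g × κ → Fin 3}
  {ψ : (Ix n g → ℂ) → Fin g × κ → ℂ}

/-- The commutator of the handle `k`. -/
noncomputable def cmm (x : Ix n g → ℂ) (k : Fin g) : Matrix (Fin n) (Fin n) ℂ :=
  mt x k false * mt x k true * (mt x k false)⁻¹ * (mt x k true)⁻¹

/-- The lifted commutator of the handle `k`. -/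
noncomputable def cmJ (j : ((Ix n g → ℂ) → ℂ) → K0) (k : Fin g) : HG n :=
  sj (jm j fun x => mt x k false) * sj (jm j fun x => mt x k true) *
    (sj (jm j fun x => mt x k false))⁻¹ * (sj (jm j fun x => mt x k true))⁻¹

/-- What the walk uses of a handle. -/
structure HI [DecidableEq κ] (S : Set (Ix n g → ℂ)) (lab : Fin g × κ → Fin 3)
    (ψ : (Ix n g → ℂ) → Fin g × κ → ℂ) (k : Fin g) (L : List (Sr n × Fin g × κ))
    (b : (Ix n g → ℂ) → Matrix (Fin n) (Fin n) ℂ) : Prop where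
  nd : (L.map Prod.snd).Nodup
  idx : ∀ q ∈ L, q.2.1 = k ∧ lab q.2 = 2
  wt : ∀ q ∈ L, SI (wT n g) S (wtL 1 L q.2) fun x => ψ x q.2
  rb : RM S b
  ut : ∀ x ∈ S, UT (b x)
  mn : ∀ a, Mn S (TG lab ψ) fun x => b x a a
  eq : ∀ x ∈ S, cmm x k = XL L (ψ x) * b x
  lift : ∃ w, Lm S (TG lab ψ) w ∧ ∀ j, Ctx S j →
    cmJ j k = XH L (fun i => j fun x => ψ x i) * sj (jm j b) * cz (w j)
  dep : ∀ x ∈ S, ∀ x' ∈ S, (∀ i, ψ x (k, i) = ψ x' (k, i)) → b x = b x'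
  si : ∀ τ, ∀ x ∈ S, diagonal (fun a => (τ (pL L a) : ℂ)) * b x =
    b (actW (wT n g) τ x) * diagonal fun a => (τ a : ℂ)

variable [Fintype κ] [DecidableEq κ] {L : Fin g → List (Sr n × Fin g × κ)}
  {b : Fin g → (Ix n g → ℂ) → Matrix (Fin n) (Fin n) ℂ}

theorem walk_all (H : ∀ k, HI S lab ψ k (L k) (b k)) (P : Set (Fin g × κ))
    (hP : ∀ i, i ∈ P ↔ i ∈ (L i.1).map Prod.snd) (hs : List (Fin g)) (hn : hs.Nodup) :
    ∀ {S1 : Set (Ix n g → ℂ)} {lab1 : Fin g × κ → Fin 3} {ψ1 : (Ix n g → ℂ) → Fin g × κ → ℂ}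
      {Q : Set (Fin g × κ)} {y : (Ix n g → ℂ) → Matrix (Fin n) (Fin n) ℂ}
      {γ : (((Ix n g → ℂ) → ℂ) → K0) → HG n} {p : Perm (Fin n)}, Q ⊆ P → (∀ i ∈ Q, i.1 ∉ hs) →
      Nx S lab ψ P Q S1 lab1 ψ1 → WS (wT n g) S1 lab1 ψ1 (P \ Q) y γ 1 p →
    Pav (fun S2 => ∃ lab2 ψ2 p2 Q2, Q2 ⊆ P ∧ Nx S lab ψ P Q2 S2 lab2 ψ2 ∧
      WS (wT n g) S2 lab2 ψ2 (P \ Q2) (fun x => y x * (hs.map (cmm x)).prod)
        (fun j => γ j * (hs.map (cmJ j)).prod) 1 p2 ∧
      ∑ i, (lab2 i).1 + (hs.map fun k => (L k).length).sum + inv p = ∑ i, (lab1 i).1 + inv p2) S1 := by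
  have P2 : ∀ i ∈ P, lab i = 2 := fun i hi => by
    obtain ⟨q, hq, e⟩ := List.mem_map.1 ((hP i).1 hi)
    exact e ▸ ((H _).idx q hq).2
  induction hs with
  | nil =>
    intro S1 lab1 ψ1 Q y γ p hQ _ nx ws
    exact Pav.one _ ⟨lab1, ψ1, p, Q, hQ, nx, ws.congr rfl rfl (by simp) Lm.zero (by simp [cz_zero]),
      by simp⟩
  | cons k hs ih =>
    intro S1 lab1 ψ1 Q y γ p hQ hk nx ws
    rw [List.nodup_cons] at hn
    have h := H k
    have nq : ∀ q ∈ L k, q.2 ∉ Q := fun q hq e => hk _ e (by simp [(h.idx q hq).1])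
    have mp : ∀ q ∈ L k, q.2 ∈ P := fun q hq =>
      (hP _).2 (by rw [(h.idx q hq).1]; exact List.mem_map_of_mem hq)
    have sm := fun q hq => (nx.same _ (nq q hq)).1
    refine (WS.walk (L k) h.nd ws (fun q hq => ⟨mp q hq, nq q hq⟩) fun q hq τ x hx => ?_).bind ?_
    · simpa only [sm q hq] using h.wt q hq τ x (nx.sub hx)
    rintro S2 ⟨lab2, ψ2, p2, nx2, ws2, ct2⟩
    have nx3 := nx.trans nx2
    have hQ3 : Q ∪ {i | i ∈ (L k).map Prod.snd} ⊆ P := by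
      rintro i (hi | hi)
      · exact hQ hi
      · obtain ⟨q, hq, e⟩ := List.mem_map.1 hi
        exact e ▸ mp q hq
    have tg := nx3.tg fun i hi => P2 i (hQ3 hi)
    obtain ⟨w, w1, w2⟩ := h.lift
    have ws3 := (ws2.bo (v' := 1) (h.rb.mono nx3.sub) (fun x hx => h.ut x (nx3.sub hx))
      (fun a => (h.mn a).mono nx3.sub tg) (fun x hx x' hx' e => h.dep x (nx3.sub hx) x'
        (nx3.sub hx') fun i => nx3.ref x hx x' hx' (by rwa [← Set.sdiff_sdiff]) _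
          fun t => t.2 (Or.inr ((hP _).1 t.1)))
      fun τ x hx => by simpa using h.si τ x (nx3.sub hx)).congr (y' := fun x => y x * cmm x k)
        (γ' := fun j => γ j * cmJ j k) Set.sdiff_sdiff.symm rfl (fun x hx => by
          rw [h.eq x (nx3.sub hx), Matrix.mul_assoc, XL_congr fun q hq => sm q hq x])
        (w1.mono nx3.sub tg) fun j hj => by
          rw [w2 j (hj.mono nx3.sub), XH_congr (w := fun i => j fun x => ψ1 x i)
            (w' := fun i => j fun x => ψ x i) fun q hq => by simp only [sm q hq]]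
          simp only [mul_assoc]
    refine (ih hn.2 hQ3 ?_ nx3 ws3).mono ?_
    · rintro i (hi | hi) t
      · exact hk i hi (by simp [t])
      · obtain ⟨q, hq, e⟩ := List.mem_map.1 hi
        exact hn.1 (by rwa [← e, (h.idx q hq).1] at t)
    rintro S3 ⟨lab3, ψ3, p3, Q3, a1, a2, a3, a4⟩
    refine ⟨lab3, ψ3, p3, Q3, a1, a2, a3.congr rfl rfl (fun x _ => by simp [Matrix.mul_assoc])
      Lm.zero fun j _ => by simp [cz_zero, mul_assoc], ?_⟩
    simp only [List.map_cons, List.sum_cons]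
    omega

theorem asm (H : ∀ k, HI S lab ψ k (L k) (b k)) (ch : Ch S lab ψ) (stb : Stb (wT n g) S)
    (si : ∀ k, ∃ χ, SI (wT n g) S χ fun x => ψ x k)
    (ct : ∑ i, (lab i).1 = ∑ k, (L k).length + 2 * g * n ^ 2)
    (hd : ∀ k e, Mn S (TG lab ψ) fun x => (mt x k e).det) : Pav (GCell n g) (S ∩ Yh n g) := by
  have P2 : ∀ i ∈ {i : Fin g × κ | i ∈ (L i.1).map Prod.snd}, lab i = 2 := fun i hi => by
    obtain ⟨q, hq, e⟩ := List.mem_map.1 hi
    exact e ▸ ((H _).idx q hq).2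
  have ws : WS (wT n g) S lab ψ ({i | i ∈ (L i.1).map Prod.snd} \ ∅) (fun _ => 1) (fun _ => 1) 1 1 :=
    ⟨ch, stb, si, St.one, fun _ _ _ _ _ => rfl, fun τ x _ => by simp, fun i hi => P2 i hi.1⟩
  refine (walk_all H _ (fun _ => Iff.rfl) (List.finRange g) (List.nodup_finRange g)
    (Set.empty_subset _) (by simp) ⟨subset_rfl, fun _ _ => ⟨fun _ => rfl, rfl⟩,
      fun _ _ _ _ e => e⟩ ws).inter _ ?_
  rintro S2 ⟨lab2, ψ2, p2, Q2, a1, a2, a3, a4⟩
  have em : ∀ x : Ix n g → ℂ, 1 * ((List.finRange g).map (cmm x)).prod = mu x := fun x => by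
    rw [Matrix.one_mul, mu, List.ofFn_eq_map]; rfl
  by_cases hp : p2 = 1
  · subst hp
    obtain ⟨f1, f2, f3⟩ := a3.st.fin
    have tg := a2.tg fun i hi => P2 i (a1 hi)
    have sub : S2 ⊆ Yh n g := fun x hx =>
      ⟨fun k e => (hd k e).2.1 x (a2.sub hx), by simpa only [em, UT] using f1 x hx⟩
    rw [Set.inter_eq_left.2 sub]
    obtain ⟨a, b, c, c1, c2, c3⟩ := a3.ch.cell
    obtain ⟨Ω, hΩ⟩ := f3 _ subset_rfl a b c c2
    refine Pav.one _ ⟨a, b, c, Ω, ?_, sub, ⟨a3.stb, fun i => ?_⟩,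
      fun k e => ((hd k e).mono a2.sub tg).2.2 _ subset_rfl a b c c2, fun a' => ?_, fun j hj => ?_⟩
    · rw [← List.ofFn_eq_map, List.sum_ofFn] at a4
      omega
    · obtain ⟨k, e⟩ := c3 i
      obtain ⟨χ, q⟩ := a3.si k
      exact ⟨χ, by simpa only [e] using q⟩
    · simpa only [em] using (f2 a').2.2 _ subset_rfl a b c c2
    · rw [← hΩ j hj, omC, muJ, List.ofFn_eq_map]
      beta_reduce
      rw [one_mul]; rfl
  · have : S2 ∩ Yh n g = ∅ := Set.eq_empty_of_forall_notMem fun x hx =>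
      hp (a3.st.eq_one hx.1 (by simpa only [em, UT] using hx.2.2))
    rw [this]; exact Pav.nil

end P275BC
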