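import Vale.Agent.P275BC.Defs

/-! Regular functions and pavings. -/

namespace P275BC

open MvPolynomial Matrix Filter Topology

variable {ι κ : Type} {S S' Y : Set (ι → ℂ)} {f g : (ι → ℂ) → ℂ}

theorem ZC.univ : ZC (Set.univ : Set (ι → ℂ)) := ⟨∅, by simp⟩

theorem ZC.empty : ZC (∅ : Set (ι → ℂ)) := ⟨{1}, by simp⟩

theorem ZC.iInter {J : Sort*} {C : J → Set (ι → ℂ)} (h : ∀ j, ZC (C j)) : ZC (⋂ j, C j) := by
  choose s hs using h
  refine ⟨⋃ j, s j, ?_⟩
  ext x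
  simp only [Set.mem_iInter, hs, Set.mem_ofPred_eq, Set.mem_iUnion]
  exact ⟨fun h P ⟨j, hj⟩ => h j P hj, fun h j P hP => h P ⟨j, hP⟩⟩

theorem ZC.inter {A B : Set (ι → ℂ)} (hA : ZC A) (hB : ZC B) : ZC (A ∩ B) := by
  obtain ⟨s, rfl⟩ := hA
  obtain ⟨t, rfl⟩ := hB
  refine ⟨s ∪ t, ?_⟩
  ext x
  simp only [Set.mem_inter_iff, Set.mem_ofPred_eq, Set.mem_union]
  exact ⟨fun h P hP => hP.elim (h.1 P) (h.2 P), fun h => ⟨fun P hP => h P (Or.inl hP),
    fun P hP => h P (Or.inr hP)⟩⟩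

theorem ZC.union {A B : Set (ι → ℂ)} (hA : ZC A) (hB : ZC B) : ZC (A ∪ B) := by
  obtain ⟨s, rfl⟩ := hA
  obtain ⟨t, rfl⟩ := hB
  refine ⟨{R | ∃ P ∈ s, ∃ Q ∈ t, R = P * Q}, ?_⟩
  ext x
  simp only [Set.mem_union, Set.mem_ofPred_eq]
  constructor
  · rintro (h | h) R ⟨P, hP, Q, hQ, rfl⟩
    · simp [h P hP]
    · simp [h Q hQ]
  · intro h
    by_contra hc
    push Not at hc
    obtain ⟨⟨P, hP, h1⟩, Q, hQ, h2⟩ := hc
    have := h _ ⟨P, hP, Q, hQ, rfl⟩
    simp [h1, h2] at this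

theorem ZC.poly (P : MvPolynomial ι ℂ) : ZC {x : ι → ℂ | eval x P = 0} := ⟨{P}, by simp⟩

namespace Reg

theorem mono (h : Reg S f) (hs : S' ⊆ S) : Reg S' f := fun y hy =>
  let ⟨P, Q, h1, h2⟩ := h y (hs hy)
  ⟨P, Q, h1, fun x hx => h2 x (hs hx)⟩

theorem congr (h : Reg S f) (e : ∀ x ∈ S, g x = f x) : Reg S g := fun y hy =>
  let ⟨P, Q, h1, h2⟩ := h y hy
  ⟨P, Q, h1, fun x hx hq => (e x hx).trans (h2 x hx hq)⟩

theorem poly (P : MvPolynomial ι ℂ) : Reg S fun x => eval x P := fun _ _ =>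
  ⟨P, 1, by simp, by simp⟩

theorem const (c : ℂ) : Reg S fun _ => c := (poly (C c)).congr (by simp)

theorem coord (i : ι) : Reg S fun x => x i := (poly (X i)).congr (by simp)

theorem add (hf : Reg S f) (hg : Reg S g) : Reg S fun x => f x + g x := fun y hy => by
  obtain ⟨P, Q, h1, h2⟩ := hf y hy
  obtain ⟨P', Q', h3, h4⟩ := hg y hy
  refine ⟨P * Q' + P' * Q, Q * Q', by simp [h1, h3], fun x hx hq => ?_⟩
  simp only [map_mul, ne_eq, mul_eq_zero, not_or] at hq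
  beta_reduce
  rw [h2 x hx hq.1, h4 x hx hq.2]
  simp only [map_add, map_mul]
  field_simp [hq.1, hq.2]

theorem mul (hf : Reg S f) (hg : Reg S g) : Reg S fun x => f x * g x := fun y hy => by
  obtain ⟨P, Q, h1, h2⟩ := hf y hy
  obtain ⟨P', Q', h3, h4⟩ := hg y hy
  refine ⟨P * P', Q * Q', by simp [h1, h3], fun x hx hq => ?_⟩
  simp only [map_mul, ne_eq, mul_eq_zero, not_or] at hq
  beta_reduce
  rw [h2 x hx hq.1, h4 x hx hq.2]
  simp only [map_mul]
  field_simp [hq.1, hq.2]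

theorem neg (hf : Reg S f) : Reg S fun x => -f x := ((const (-1)).mul hf).congr (by simp)

theorem sub (hf : Reg S f) (hg : Reg S g) : Reg S fun x => f x - g x :=
  (hf.add hg.neg).congr fun _ _ => sub_eq_add_neg _ _

theorem inv (hf : Reg S f) (h0 : ∀ x ∈ S, f x ≠ 0) : Reg S fun x => (f x)⁻¹ := fun y hy => by
  obtain ⟨P, Q, h1, h2⟩ := hf y hy
  have hP : eval y P ≠ 0 := fun h => h0 y hy (by rw [h2 y hy h1, h, zero_div])
  refine ⟨Q * Q, P * Q, by simp [h1, hP], fun x hx hq => ?_⟩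
  simp only [map_mul, ne_eq, mul_eq_zero, not_or] at hq
  beta_reduce
  rw [h2 x hx hq.2]
  simp only [map_mul]
  field_simp [hq.1, hq.2]

theorem div (hf : Reg S f) (hg : Reg S g) (h0 : ∀ x ∈ S, g x ≠ 0) : Reg S fun x => f x / g x :=
  (hf.mul (hg.inv h0)).congr fun _ _ => div_eq_mul_inv _ _

theorem sum {J : Type*} (s : Finset J) {F : J → (ι → ℂ) → ℂ} (h : ∀ j ∈ s, Reg S (F j)) :
    Reg S fun x => ∑ j ∈ s, F j x := by
  classical
  induction s using Finset.induction_on with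
  | empty => exact (const 0).congr (by simp)
  | insert a s ha ih =>
    exact ((h a (by simp)).add (ih fun j hj => h j (by simp [hj]))).congr
      fun x _ => Finset.sum_insert ha

theorem prod {J : Type*} (s : Finset J) {F : J → (ι → ℂ) → ℂ} (h : ∀ j ∈ s, Reg S (F j)) :
    Reg S fun x => ∏ j ∈ s, F j x := by
  classical
  induction s using Finset.induction_on with
  | empty => exact (const 1).congr (by simp)
  | insert a s ha ih =>
    exact ((h a (by simp)).mul (ih fun j hj => h j (by simp [hj]))).congr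
      fun x _ => Finset.prod_insert ha

theorem pow (hf : Reg S f) (k : ℕ) : Reg S fun x => f x ^ k :=
  (prod (Finset.range k) fun _ _ => hf).congr (by simp)

theorem zpow (hf : Reg S f) (h0 : ∀ x ∈ S, f x ≠ 0) (k : ℤ) : Reg S fun x => f x ^ k := by
  cases k with
  | ofNat k => exact (hf.pow k).congr (by simp)
  | negSucc k => exact ((hf.pow (k + 1)).inv fun x hx => pow_ne_zero _ (h0 x hx)).congr (by simp)

theorem det {m : Type} [Fintype m] [DecidableEq m] {M : (ι → ℂ) → Matrix m m ℂ}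
    (h : ∀ a b, Reg S fun x => M x a b) : Reg S fun x => (M x).det :=
  (sum Finset.univ fun (σ : Equiv.Perm m) _ => (const ((Equiv.Perm.sign σ : ℤ) : ℂ)).mul
    (prod Finset.univ fun a _ => h (σ a) a)).congr fun x _ => by rw [Matrix.det_apply']

theorem eval_comp {F : (ι → ℂ) → κ → ℂ} (hF : ∀ k, Reg S fun x => F x k) (P : MvPolynomial κ ℂ) :
    Reg S fun x => eval (F x) P := by
  induction P using MvPolynomial.induction_on with
  | C a => exact (const a).congr (by simp)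
  | add p q hp hq => exact (hp.add hq).congr (by simp)
  | mul_X p k hp => exact (hp.mul (hF k)).congr (by simp)

theorem comp {T : Set (κ → ℂ)} {f : (κ → ℂ) → ℂ} (hf : Reg T f) {F : (ι → ℂ) → κ → ℂ}
    (hF : ∀ k, Reg S fun x => F x k) (hm : ∀ x ∈ S, F x ∈ T) : Reg S fun x => f (F x) :=
  fun y hy => by
  obtain ⟨P, Q, h1, h2⟩ := hf (F y) (hm y hy)
  obtain ⟨P1, Q1, h3, h4⟩ := eval_comp hF P y hy
  obtain ⟨P2, Q2, h5, h6⟩ := eval_comp hF Q y hy
  beta_reduce at h4 h6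
  have hP : eval y P2 ≠ 0 := fun h => h1 (by rw [h6 y hy h5, h, zero_div])
  refine ⟨P1 * Q2 * Q2, Q1 * P2 * Q2, by simp [h3, h5, hP], fun x hx hq => ?_⟩
  simp only [map_mul, ne_eq, mul_eq_zero, not_or] at hq
  have e := h6 x hx hq.2
  have e0 : eval (F x) Q ≠ 0 := by rw [e]; exact div_ne_zero hq.1.2 hq.2
  beta_reduce
  rw [h2 _ (hm x hx) e0, h4 x hx hq.1.1, e]
  simp only [map_mul]
  field_simp [hq.1.1, hq.1.2, hq.2]

/-- Regularity is Zariski local. -/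
theorem of_local (h : ∀ y ∈ S, ∃ Q : MvPolynomial ι ℂ, eval y Q ≠ 0 ∧
    Reg {x ∈ S | eval x Q ≠ 0} f) : Reg S f := fun y hy => by
  obtain ⟨Q, h1, h2⟩ := h y hy
  obtain ⟨P1, Q1, h3, h4⟩ := h2 y ⟨hy, h1⟩
  refine ⟨P1 * Q, Q1 * Q, by simp [h1, h3], fun x hx hq => ?_⟩
  simp only [map_mul, ne_eq, mul_eq_zero, not_or] at hq
  rw [h4 x ⟨hx, hq.2⟩ hq.1]
  simp only [map_mul]
  field_simp [hq.1, hq.2]

theorem zc (hf : Reg S f) : ∃ C, ZC C ∧ ∀ x ∈ S, x ∈ C ↔ f x = 0 := by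
  refine ⟨{x | ∀ P ∈ {P : MvPolynomial ι ℂ | ∀ x ∈ S, f x = 0 → eval x P = 0}, eval x P = 0},
    ⟨_, rfl⟩, fun y hy => ⟨fun h => ?_, fun h P hP => hP y hy h⟩⟩
  obtain ⟨P, Q, h1, h2⟩ := hf y hy
  have := h (P * Q) fun x hx h0 => by
    by_cases hq : eval x Q = 0
    · simp [hq]
    · rw [h2 x hx hq, div_eq_zero_iff] at h0
      simp [h0.resolve_right hq]
  rw [map_mul, mul_eq_zero] at this
  rw [h2 y hy h1, this.resolve_right h1, zero_div]

theorem differentiableAt {E : Type*} [NormedAddCommGroup E] [NormedSpace ℂ E] (hf : Reg S f)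
    {F : E → ι → ℂ} {w : E} (hF : ∀ i, DifferentiableAt ℂ (fun v => F v i) w)
    (hm : ∀ᶠ v in 𝓝 w, F v ∈ S) : DifferentiableAt ℂ (fun v => f (F v)) w := by
  have hP : ∀ P : MvPolynomial ι ℂ, DifferentiableAt ℂ (fun v => eval (F v) P) w := fun P => by
    induction P using MvPolynomial.induction_on with
    | C a => simp
    | add p q hp hq => simp only [map_add]; exact hp.fun_add hq
    | mul_X p k hp => simp only [map_mul, eval_X]; exact hp.fun_mul (hF k)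
  obtain ⟨P, Q, h1, h2⟩ := hf (F w) hm.self_of_nhds
  have hd : DifferentiableAt ℂ (fun v => eval (F v) P * (eval (F v) Q)⁻¹) w :=
    (hP P).fun_mul (DifferentiableAt.fun_inv (h := fun v => eval (F v) Q) (hP Q) h1)
  refine hd.congr_of_eventuallyEq ?_
  filter_upwards [hm, (hP Q).continuousAt.eventually_ne h1] with v hv hq
  rw [h2 _ hv hq, div_eq_mul_inv]

end Reg

theorem ZC.pre {C : Set (κ → ℂ)} (hC : ZC C) {F : (ι → ℂ) → κ → ℂ}
    (hF : ∀ k, Reg S fun x => F x k) : ∃ C', ZC C' ∧ ∀ x ∈ S, x ∈ C' ↔ F x ∈ C := by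
  obtain ⟨s, rfl⟩ := hC
  choose D hD using fun P : s => (Reg.eval_comp hF P.1).zc
  refine ⟨⋂ P, D P, ZC.iInter fun P => (hD P).1, fun x hx => ?_⟩
  simp only [Set.mem_iInter, Set.mem_ofPred_eq, (hD _).2 x hx, Subtype.forall]

theorem isOpen_Tor {α β : Type} [Finite α] : IsOpen (Tor α β) := by
  have : Tor α β = ⋂ i, {w : α ⊕ β → ℂ | w (Sum.inl i) ≠ 0} := by ext; simp [Tor]
  rw [this]
  exact isOpen_iInter_of_finite fun i => isOpen_ne_fun (continuous_apply _) continuous_const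

namespace Pav
variable {c c' : Set (ι → ℂ) → Prop}

theorem bind (h : Pav c Y) (hc : ∀ S, c S → Pav c' S) : Pav c' Y := by
  induction h with
  | nil => exact nil
  | one S hS => exact hc S hS
  | cut Y C hC _ _ h1 h2 => exact cut Y C hC h1 h2

theorem mono (h : Pav c Y) (hc : ∀ S, c S → c' S) : Pav c' Y := h.bind fun S hS => one S (hc S hS)

theorem sub (h : Pav c Y) : Pav (fun S => c S ∧ S ⊆ Y) Y := by
  induction h with
  | nil => exact nil
  | one S hS => exact one S ⟨hS, subset_rfl⟩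
  | cut Y C hC _ _ h1 h2 =>
    exact cut Y C hC (h1.mono fun S hS => ⟨hS.1, hS.2.trans Set.sdiff_subset⟩)
      (h2.mono fun S hS => ⟨hS.1, hS.2.trans Set.inter_subset_left⟩)

theorem cutf (hf : Reg Y f) (h1 : Pav c {x ∈ Y | f x ≠ 0}) (h2 : Pav c {x ∈ Y | f x = 0}) :
    Pav c Y := by
  obtain ⟨C, hC, e⟩ := hf.zc
  refine cut Y C hC ?_ ?_
  · have : Y \ C = {x ∈ Y | f x ≠ 0} := by
      ext x; exact and_congr_right fun hx => (e x hx).not
    rwa [this]
  · have : Y ∩ C = {x ∈ Y | f x = 0} := by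
      ext x; exact and_congr_right fun hx => e x hx
    rwa [this]

/-- Pull back along a regular map. -/
theorem pre {d : Set (κ → ℂ) → Prop} {Z : Set (κ → ℂ)} (h : Pav d Z) {F : (ι → ℂ) → κ → ℂ}
    (hF : ∀ k, Reg S fun x => F x k) :
    Pav (fun T => ∃ T', d T' ∧ T = {x ∈ S | F x ∈ T'}) {x ∈ S | F x ∈ Z} := by
  induction h with
  | nil => simpa using nil
  | one T hT => exact one _ ⟨T, hT, rfl⟩
  | cut Z C hC _ _ h1 h2 =>
    obtain ⟨C', hC', e⟩ := hC.pre hF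
    refine cut _ C' hC' ?_ ?_
    · have : {x ∈ S | F x ∈ Z} \ C' = {x ∈ S | F x ∈ Z \ C} := by
        ext x
        exact ⟨fun h => ⟨h.1.1, h.1.2, fun k => h.2 ((e x h.1.1).2 k)⟩,
          fun h => ⟨⟨h.1, h.2.1⟩, fun k => h.2.2 ((e x h.1).1 k)⟩⟩
      rwa [this]
    · have : {x ∈ S | F x ∈ Z} ∩ C' = {x ∈ S | F x ∈ Z ∩ C} := by
        ext x
        exact ⟨fun h => ⟨h.1.1, h.1.2, (e x h.1.1).1 h.2⟩,
          fun h => ⟨⟨h.1, h.2.1⟩, (e x h.1).2 h.2.2⟩⟩
      rwa [this]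

/-- Intersect every piece with a fixed set. -/
theorem inter (h : Pav c Y) (Z : Set (ι → ℂ)) (hc : ∀ S, c S → Pav c' (S ∩ Z)) :
    Pav c' (Y ∩ Z) := by
  induction h with
  | nil => simpa using nil
  | one S hS => exact hc S hS
  | cut Y C hC _ _ h1 h2 =>
    refine cut _ C hC ?_ ?_
    · have : (Y ∩ Z) \ C = (Y \ C) ∩ Z := by ext; simp; tauto
      rwa [this]
    · have : (Y ∩ Z) ∩ C = (Y ∩ C) ∩ Z := by ext; simp; tauto
      rwa [this]

/-- Induction along a paving: pieces are attached one at a time to Zariski open subsets. -/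
theorem ind (X : Set (ι → ℂ)) (P : Set (ι → ℂ) → Prop)
    (step : ∀ U S, c S → (∃ C, ZC C ∧ U = X \ C) → (∃ C, ZC C ∧ U ∪ S = X \ C) → Disjoint U S →
      P U → P (U ∪ S)) (h : Pav c Y) :
    ∀ U, (∃ C, ZC C ∧ U = X \ C) → (∃ C, ZC C ∧ U ∪ Y = X \ C) → Disjoint U Y → P U →
      P (U ∪ Y) := by
  induction h with
  | nil => intro U _ _ _ h; simpa using h
  | one S hS => exact fun U => step U S hS
  | cut Y C hC _ _ h1 h2 =>
    rintro U ⟨C1, hC1, e1⟩ ⟨C2, hC2, e2⟩ hd hP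
    have o : ∃ D, ZC D ∧ U ∪ Y \ C = X \ D := by
      refine ⟨C2 ∪ C1 ∩ C, hC2.union (hC1.inter hC), ?_⟩
      ext x
      have a1 := Set.ext_iff.1 e1 x
      have a2 := Set.ext_iff.1 e2 x
      simp only [Set.mem_union, Set.mem_sdiff, Set.mem_inter_iff] at a1 a2 ⊢
      tauto
    have e : U ∪ Y \ C ∪ Y ∩ C = U ∪ Y := by ext; simp; tauto
    have := h2 _ o ⟨C2, hC2, e.trans e2⟩ ?_ (h1 U ⟨C1, hC1, e1⟩ o
      (hd.mono_right Set.sdiff_subset) hP)
    · rwa [e] at this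
    · rw [Set.disjoint_left] at hd ⊢
      rintro x (hx | hx) k
      · exact hd hx k.1
      · exact hx.2 k.2

theorem ind' (P : Set (ι → ℂ) → Prop) (h : Pav c Y) (h0 : P ∅)
    (step : ∀ U S, c S → (∃ C, ZC C ∧ U = Y \ C) → (∃ C, ZC C ∧ U ∪ S = Y \ C) → Disjoint U S →
      P U → P (U ∪ S)) : P Y := by
  simpa using h.ind Y P step ∅ ⟨_, ZC.univ, by simp⟩ ⟨_, ZC.empty, by simp⟩ (by simp) h0

end Pav

end P275BC
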