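import Vale.Agent.P275BC.Str

/-! The chart of a product of handle strata and the cells of `Yh`. -/

namespace P275BC

open Matrix Equiv HG

variable {n g : ℕ}

/-- Coordinates of one handle. -/
abbrev Kh (n : ℕ) : Type := (Fin 4 × Fin n × Fin n) ⊕ (Bool × Fin n × Fin n)

/-- Labels of the entries of a gluing parameter. -/
def lc (p : Perm (Fin n)) (a c : Fin n) : Fin 3 :=
  if a = c then 1 else if a < c ∧ p⁻¹ a < p⁻¹ c then 2 else 0

/-- Labels of the coordinates of a handle. -/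
def lh (l : Fin 4 → Wo n) : Kh n → Fin 3
  | Sum.inl i => if i.2 ∈ (l i.1).map Prod.snd then 2 else 0
  | Sum.inr (false, a, c) => lc (pL (l 0)) a c
  | Sum.inr (true, a, c) => lc (pL (l 1)) a c

/-- Coordinates of a handle. -/
noncomputable def ph (l : Fin 4 → Wo n) (w : Fin 4 → Fin n × Fin n → ℂ) (b : Fin 4 → MC n) :
    Kh n → ℂ
  | Sum.inl i => w i.1 i.2
  | Sum.inr (false, a, c) => cA l w b a c
  | Sum.inr (true, a, c) => cB l w b a c

/-- Parameters from coordinates. -/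
def wz (w : Kh n → ℂ) (i : Fin 4) (e : Fin n × Fin n) : ℂ := w (Sum.inl (i, e))
def wc (w : Kh n → ℂ) (t : Bool) : MC n := of fun a c => w (Sum.inr (t, a, c))

/-- The handle from coordinates. -/
noncomputable def fh (l : Fin 4 → Wo n) (w : Kh n → ℂ) : Bool → MC n
  | false => aA l (wz w) (wc w false) (wc w true)
  | true => aB l (wz w) (wc w false) (wc w true)

theorem lc_iff (p : Perm (Fin n)) (M : MC n) :
    (∀ a c, (lc p a c = 0 → M a c = 0) ∧ (lc p a c = 1 → M a c ≠ 0)) ↔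
      UT M ∧ IsUnit M ∧ UT (cj p M) := by
  constructor
  · intro h
    have t : UT M := fun a c e => (h a c).1 (by simp [lc, e.ne', e.not_gt])
    refine ⟨t, t.isUnit fun a => IsUnit.mk0 _ ((h a a).2 (by simp [lc])), fun a c e => ?_⟩
    rw [cj_apply]
    exact (h _ _).1 (by simp [lc, e.ne', e.not_gt])
  · rintro ⟨t, u, tj⟩ a c
    unfold lc
    split_ifs with h1 h2
    · subst h1; simp [t.ne u]
    · simp
    · refine ⟨fun _ => ?_, by simp⟩
      rcases lt_or_gt_of_ne h1 with e | e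
      · have := tj (p⁻¹ a) (p⁻¹ c) (lt_of_le_of_ne (not_lt.1 fun k => h2 ⟨e, k⟩)
          fun k => h1 (p⁻¹.injective k).symm)
        rwa [cj_apply, pinv', pinv'] at this
      · exact t a c e

open Finset in
theorem sum_lc (p : Perm (Fin n)) :
    ∑ q : Fin n × Fin n, (lc p q.1 q.2).1 + 2 * inv p = n ^ 2 := by
  have a : #{q : Fin n × Fin n | q.1 = q.2} = n := by
    simp only [Finset.card_filter, Fintype.sum_prod_type]
    simp
  have : ∑ q : Fin n × Fin n, (lc p q.1 q.2).1 = #{q : Fin n × Fin n | q.1 = q.2} + 2 * non p⁻¹ := by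
    rw [non, Finset.card_filter, Finset.card_filter, Finset.mul_sum, ← Finset.sum_add_distrib]
    refine Finset.sum_congr rfl fun q _ => ?_
    unfold lc
    split_ifs with h1 h2 h2
    · exact absurd h1 h2.1.ne
    all_goals rfl
  have e := inv_non p⁻¹
  rw [inv_inv'] at e
  omega

theorem sum_lh {l : Fin 4 → Wo n} (hl : ∀ i, BW (l i)) (p2 : pL (l 2) = (pL (l 0))⁻¹)
    (p3 : pL (l 3) = (pL (l 1))⁻¹) : ∑ i, (lh l i).1 = ∑ i, (l i).length + 2 * n ^ 2 := by
  have a : ∀ i, ∑ e, (lh l (Sum.inl (i, e))).1 = 2 * (l i).length := fun i => by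
    rw [← List.length_map Prod.snd, ← List.toFinset_card_of_nodup (hl i).nd, Finset.card_eq_sum_ones,
      Finset.mul_sum, ← Finset.sum_subset (Finset.subset_univ ((l i).map Prod.snd).toFinset)]
    · exact Finset.sum_congr rfl fun e he => by simp only [lh, if_pos (List.mem_toFinset.1 he)]; rfl
    · exact fun e _ he => by simp only [lh, if_neg fun t => he (List.mem_toFinset.2 t)]; rfl
  rw [Fintype.sum_sum_type, Fintype.sum_prod_type, Fintype.sum_prod_type (α₁ := Bool),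
    Fintype.sum_bool]
  simp only [a, Fin.sum_univ_four]
  have b0 := sum_lc (pL (l 0))
  have b1 := sum_lc (pL (l 1))
  have c0 := (hl 0).len
  have c1 := (hl 1).len
  have c2 := (hl 2).len
  have c3 := (hl 3).len
  rw [p2, inv_inv'] at c2
  rw [p3, inv_inv'] at c3
  simp only [lh]
  omega

/-- The word of a handle. -/
def L4 (k : Fin g) (l : Fin 4 → Wo n) : List (Sr n × Fin g × Kh n) :=
  tg (fun e => (k, Sum.inl (0, e))) (l 0) ++ (tg (fun e => (k, Sum.inl (1, e))) (l 1) ++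
    (tg (fun e => (k, Sum.inl (2, e))) (l 2) ++ tg (fun e => (k, Sum.inl (3, e))) (l 3)))

theorem mem_L4 {k : Fin g} {l : Fin 4 → Wo n} {q : Sr n × Fin g × Kh n} (h : q ∈ L4 k l) :
    ∃ i e, e ∈ (l i).map Prod.snd ∧ q.2 = (k, Sum.inl (i, e)) := by
  simp only [L4, tg, List.mem_append, List.mem_map] at h
  rcases h with ⟨r, a, rfl⟩ | ⟨r, a, rfl⟩ | ⟨r, a, rfl⟩ | ⟨r, a, rfl⟩
  all_goals exact ⟨_, _, List.mem_map_of_mem a, rfl⟩

theorem snd_tg {κ κ' : Type} (f : κ → κ') (l : List (Sr n × κ)) :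
    (tg f l).map Prod.snd = (l.map Prod.snd).map f := by simp [tg]

theorem nd_L4 (k : Fin g) {l : Fin 4 → Wo n} (hl : ∀ i, BW (l i)) :
    ((L4 k l).map Prod.snd).Nodup := by
  have a : ∀ i : Fin 4, (((l i).map Prod.snd).map fun e =>
      ((k, Sum.inl (i, e)) : Fin g × Kh n)).Nodup :=
    fun i => (hl i).nd.map fun e e' h => by simpa using h
  simp only [L4, List.map_append, snd_tg, List.nodup_append, a, true_and, List.mem_append]
  simp only [List.mem_map]
  refine ⟨⟨?_, ?_⟩, ?_⟩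
  · rintro _ ⟨_, _, rfl⟩ _ ⟨_, _, rfl⟩; simp
  · rintro _ ⟨_, _, rfl⟩ _ (⟨_, _, rfl⟩ | ⟨_, _, rfl⟩) <;> simp
  · rintro _ ⟨_, _, rfl⟩ _ (⟨_, _, rfl⟩ | ⟨_, _, rfl⟩ | ⟨_, _, rfl⟩) <;> simp

theorem wtL_L4 (k : Fin g) (l : Fin 4 → Wo n) (i : Fin 4) (e : Fin n × Fin n)
    (he : e ∈ (l i).map Prod.snd) : wtL 1 (L4 k l) (k, Sum.inl (i, e)) = wtL (vp l i) (l i) e := by
  have inj : ∀ i : Fin 4, Function.Injective fun e => ((k, Sum.inl (i, e)) : Fin g × Kh n) :=
    fun i e e' h => by simpa using h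
  have m : ∀ i' : Fin 4, ((k, Sum.inl (i, e)) : Fin g × Kh n) ∈
      ((l i').map Prod.snd).map (fun e => ((k, Sum.inl (i', e)) : Fin g × Kh n)) ↔ i = i' :=
    fun i' => ⟨fun h => by
      obtain ⟨_, _, h⟩ := List.mem_map.1 h
      simp only [Prod.mk.injEq, Sum.inl.injEq] at h
      exact h.2.1.symm, fun h => h ▸ List.mem_map_of_mem he⟩
  simp only [L4, wtL_append, snd_tg, m, pL_tg, one_mul]
  fin_cases i
  · exact wtL_tg (inj 0) _ _ _
  · exact wtL_tg (inj 1) _ _ _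
  · exact wtL_tg (inj 2) _ _ _
  · exact wtL_tg (inj 3) _ _ _

theorem iw_mt (τ : Fin n → ℂˣ) (x : Ix n g → ℂ) (k : Fin g) (e : Bool) :
    Iw τ (mt x k e) (mt (actW (wT n g) τ x) k e) τ :=
  iw_iff.2 fun a c => by simp only [mt, of_apply, actW, wT, chr_root]

theorem RM.vL {ι κ : Type} {S : Set (ι → ℂ)} {z : (ι → ℂ) → κ → ℂ} (h : ∀ k, Reg S fun x => z x k)
    (l : List (Sr n × κ)) : RM S fun x => vL l (z x) := (RM.XL h l).mul (RM.const _)

theorem RM.cj {ι : Type} {S : Set (ι → ℂ)} {c : (ι → ℂ) → MC n} (h : RM S c) (p : Perm (Fin n)) :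
    RM S fun x => cj p (c x) := ((RM.const _).mul h).mul (RM.const _)

variable {S : Set (Ix n g → ℂ)} {l : Fin g → Fin 4 → Wo n}
  {z : Fin g → (Ix n g → ℂ) → Fin 4 → Fin n × Fin n → ℂ} {b : Fin g → (Ix n g → ℂ) → Fin 4 → MC n}

/-- A product of handle strata. -/
structure PS (S : Set (Ix n g → ℂ)) (l : Fin g → Fin 4 → Wo n)
    (z : Fin g → (Ix n g → ℂ) → Fin 4 → Fin n × Fin n → ℂ)
    (b : Fin g → (Ix n g → ℂ) → Fin 4 → MC n) : Prop where
  mem : ∀ x, x ∈ S ↔ x ∈ Gh n g ∧ ∀ k, ∃ w b, Fac (l k) (mt x k false) (mt x k true) w b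
  hs : ∀ k, HS S (fun x => mt x k false) (fun x => mt x k true) (l k) (z k) (b k)
  p2 : ∀ k, pL (l k 2) = (pL (l k 0))⁻¹
  p3 : ∀ k, pL (l k 3) = (pL (l k 1))⁻¹

namespace PS
variable (h : PS S l z b)
include h

theorem u {x : Ix n g → ℂ} (hx : x ∈ S) (k : Fin g) (e : Bool) : IsUnit (mt x k e) :=
  ((h.mem x).1 hx).1 k e

theorem rel {x : Ix n g → ℂ} (hx : x ∈ S) (k : Fin g) :
    Rel (l k) (z k x) (b k x) (cA (l k) (z k x) (b k x)) (cB (l k) (z k x) (b k x)) :=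
  ((h.hs k).fac x hx).rel (h.hs k).bw (h.u hx k _) (h.u hx k _)

theorem ub {x : Ix n g → ℂ} (hx : x ∈ S) (k : Fin g) (i : Fin 4) : IsUnit (b k x i) :=
  ((h.hs k).fac x hx).unit (h.u hx k _) (h.u hx k _) i

theorem rA (k : Fin g) : RM S fun x => cA (l k) (z k x) (b k x) :=
  ((h.hs k).rb 2).mul (RM.vL ((h.hs k).rz 0) _)

theorem rB (k : Fin g) : RM S fun x => cB (l k) (z k x) (b k x) :=
  (((h.hs k).rb 3).mul (((h.hs k).rb 0).inv fun _ hx => det_ne (h.ub hx k 0))).mul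
    (RM.vL ((h.hs k).rz 1) _)

theorem back {x : Ix n g → ℂ} (hx : x ∈ S) (k : Fin g) (e : Bool) :
    fh (l k) (ph (l k) (z k x) (b k x)) e = mt x k e := by
  have := ((h.hs k).fac x hx).back (h.hs k).bw (h.u hx k _) (h.u hx k _)
  cases e
  exacts [this.1, this.2]

theorem uq {x : Ix n g → ℂ} (hx : x ∈ S) {k : Fin g} {w : Fin 4 → Fin n × Fin n → ℂ}
    {b' : Fin 4 → MC n} (f : Fac (l k) (mt x k false) (mt x k true) w b')
    (w0 : ∀ i e, e ∉ (l k i).map Prod.snd → w i e = 0) : z k x = w ∧ b k x = b' := by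
  have := ((h.hs k).fac x hx).unique (h.hs k).bw f (h.u hx k _) (h.u hx k _)
  refine ⟨funext₂ fun i e => ?_, funext fun i => (this i).1⟩
  by_cases he : e ∈ (l k i).map Prod.snd
  · obtain ⟨q, hq, rfl⟩ := List.mem_map.1 he
    exact (this i).2 q hq
  · rw [(h.hs k).z0 x i e he, w0 i e he]

theorem ch : Ch S (fun i : Fin g × Kh n => lh (l i.1) i.2) fun x i => ph (l i.1) (z i.1 x) (b i.1 x) i.2 := by
  have mk := fun (w : Fin g × Kh n → ℂ) (hw : w ∈ Dm fun i : Fin g × Kh n => lh (l i.1) i.2) (k : Fin g) =>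
    have a := (lc_iff (pL (l k 0)) (wc (fun i => w (k, i)) false)).1
      fun a c => hw (k, Sum.inr (false, a, c))
    have a' := (lc_iff (pL (l k 1)) (wc (fun i => w (k, i)) true)).1
      fun a c => hw (k, Sum.inr (true, a, c))
    fac_mk (h.hs k).bw (h.p2 k) (h.p3 k) (wz fun i => w (k, i)) a.1 a.2.1 a.2.2 a'.1 a'.2.1 a'.2.2
  refine ⟨?_, fun x hx => ?_, fun w i => fh (l i.1) (fun e => w (i.1, e)) i.2.1 i.2.2.1 i.2.2.2,
    ?_, fun w hw => ?_, fun x hx => ?_⟩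
  · rintro ⟨k, i | ⟨_ | _, a, c⟩⟩
    exacts [(h.hs k).rz _ _, h.rA k a c, h.rB k a c]
  · rintro ⟨k, i | ⟨_ | _, a, c⟩⟩
    · simp only [lh, ph]
      split_ifs with e
      · simp
      · simp [(h.hs k).z0 x _ _ e]
    · exact (lc_iff _ _).2 ⟨(h.rel hx k).t, (h.rel hx k).u, (h.rel hx k).tj⟩ a c
    · exact (lc_iff _ _).2 ⟨(h.rel hx k).t', (h.rel hx k).u', (h.rel hx k).tj'⟩ a c
  · rintro ⟨k, t, a, c⟩
    have rz : ∀ i e, Reg (Dm fun i : Fin g × Kh n => lh (l i.1) i.2) fun w => wz (fun i => w (k, i)) i e :=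
      fun i e => Reg.coord _
    have rc : ∀ t, RM (Dm fun i : Fin g × Kh n => lh (l i.1) i.2) fun w => wc (fun i => w (k, i)) t :=
      fun t a c => Reg.coord _
    have r2 := (rc false).mul ((RM.vL (rz 0) (l k 0)).inv fun w _ =>
      det_ne (((h.hs k).bw 0).uni _).isUnit)
    have r1 := (((RM.vL (rz 3) (l k 3)).mul ((rc true).cj (pL (l k 1)))).inv fun w hw =>
      det_ne (mk w hw k).1.1).mul r2
    have r0 := (((RM.vL (rz 2) (l k 2)).mul ((rc false).cj (pL (l k 0)))).inv fun w hw =>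
      det_ne (mk w hw k).1.2.1).mul r1
    cases t
    · exact (RM.XL (rz 0) (l k 0)).mul r0 a c
    · exact (r0.inv fun w hw => det_ne (mk w hw k).1.2.2).mul ((RM.XL (rz 1) (l k 1)).mul r1) a c
  · have m : (fun i : Ix n g => fh (l i.1) (fun e => w (i.1, e)) i.2.1 i.2.2.1 i.2.2.2) ∈ S := by
      refine (h.mem _).2 ⟨fun k e => ?_, fun k => ?_⟩
      · cases e
        exacts [(mk w hw k).2.1, (mk w hw k).2.2.1]
      · obtain ⟨b', f, _⟩ := (mk w hw k).2.2.2
        exact ⟨_, b', f⟩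
    refine ⟨m, funext fun i => ?_⟩
    obtain ⟨b', f, e1, e2⟩ := (mk w hw i.1).2.2.2
    obtain ⟨a1, a2⟩ := h.uq m f fun j e he => (hw (i.1, Sum.inl (j, e))).1 (if_neg he)
    rw [a1, a2]
    obtain ⟨k, i | ⟨_ | _, a, c⟩⟩ := i
    · rfl
    · exact congrFun₂ e1 a c
    · exact congrFun₂ e2 a c
  · funext i
    exact congrFun₂ (h.back hx i.1 i.2.1) _ _

theorem stb : Stb (wT n g) S := fun τ x hx =>
  (h.mem _).2 ⟨fun k e => (iw_mt τ x k e).unit (h.u hx k e), fun k =>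
    let ⟨b', f, _⟩ := ((h.hs k).fac x hx).tw (h.hs k).bw (h.u hx k _) (h.u hx k _) (iw_mt τ x k _)
      (iw_mt τ x k _)
    ⟨_, b', f⟩⟩

theorem tw (τ : Fin n → ℂˣ) {x : Ix n g → ℂ} (hx : x ∈ S) (k : Fin g) :
    (∀ i e, z k (actW (wT n g) τ x) i e = chr (wtL (vp (l k) i) (l k i) e) τ * z k x i e) ∧
      Iw (fun a => τ ((vp (l k) 3 * pL (l k 3)) a)) (b k x 3) (b k (actW (wT n g) τ x) 3) τ ∧
      Iw (fun a => τ (vp (l k) 3 a)) (cA (l k) (z k x) (b k x))
        (cA (l k) (z k (actW (wT n g) τ x)) (b k (actW (wT n g) τ x))) τ ∧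
      Iw (fun a => τ ((vp (l k) 3 * pL (l k 3)) a)) (cB (l k) (z k x) (b k x))
        (cB (l k) (z k (actW (wT n g) τ x)) (b k (actW (wT n g) τ x))) fun a => τ (vp (l k) 1 a) := by
  obtain ⟨b', f, a⟩ := ((h.hs k).fac x hx).tw (h.hs k).bw (h.u hx k _) (h.u hx k _) (iw_mt τ x k _)
    (iw_mt τ x k _)
  obtain ⟨a1, a2⟩ := h.uq (h.stb τ x hx) f fun i e he => by rw [(h.hs k).z0 x i e he, mul_zero]
  rw [a1, a2]
  exact ⟨fun _ _ => rfl, a⟩

theorem si (i : Fin g × Kh n) :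
    ∃ χ, SI (wT n g) S χ fun x => ph (l i.1) (z i.1 x) (b i.1 x) i.2 := by
  obtain ⟨k, i | ⟨_ | _, a, c⟩⟩ := i
  · exact ⟨_, fun τ x hx => (h.tw τ hx k).1 _ _⟩
  · exact ⟨_, fun τ x hx => by rw [chr_root]; exact iw_iff.1 (h.tw τ hx k).2.2.1 a c⟩
  · exact ⟨_, fun τ x hx => by rw [chr_root]; exact iw_iff.1 (h.tw τ hx k).2.2.2 a c⟩

theorem lift (k : Fin g) {j : ((Ix n g → ℂ) → ℂ) → K0} (hj : Ctx S j) :
    cmJ j k = XH (L4 k (l k)) (fun i => j fun x => ph (l i.1) (z i.1 x) (b i.1 x) i.2) *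
      sj (jm j fun x => b k x 3) *
      cz (-∑ a, wg (j fun x => cj (pL (l k 0)) (cA (l k) (z k x) (b k x)) a a)
          (j fun x => b k x 0 a a) +
        -(∑ a, wg (j fun x => cj (pL (l k 1)) (cB (l k) (z k x) (b k x)) a a)
          (j fun x => b k x 1 a a) + -∑ a, wg (j fun x => cB (l k) (z k x) (b k x) a a)
            (j fun x => ((vL (l k 1) (z k x 1))⁻¹ * b k x 0) a a))) := by
  have H := h.hs k
  have v : ∀ x i, Uni (vL (l k i) (z k x i)) := fun x i => (H.bw i).uni _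
  have t : ∀ x ∈ S, ∀ i, UT (b k x i) := fun x hx => (H.fac x hx).1
  have rv := fun i => RM.vL (H.rz i) (l k i)
  have ri := fun i => (rv i).inv fun x _ => det_ne (v x i).isUnit
  have jX : ∀ i, XH (l k i) (fun e => j fun x => z k x i e) =
      sj (jm j (fun x => vL (l k i) (z k x i)) * pm K0 (pL (l k i))) := fun i => by
    rw [(H.bw i).lift, ← jm_XL hj (H.rz i), ← jm_pm hj, ← jm_mul hj (rv i) (RM.const _),
      jm_cgr hj fun x _ => vL_pm (l k i) (z k x i)]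
  have bo := fun i => jm_bo hj (fun x hx => t x hx i) fun a x hx => (t x hx i).ne (h.ub hx k i) a
  have un := fun i => jm_uni hj fun x _ => v x i
  have r0' := (ri 1).mul (H.rb 0)
  simp only [L4, XH_append, XH_tg, ph, jX, h.p2, h.p3]
  have bo' : ∀ {F : (Ix n g → ℂ) → MC n}, (∀ x ∈ S, UT (F x)) → (∀ x ∈ S, IsUnit (F x)) →
      Bo (jm j F) := fun a b => jm_bo hj a fun c x hx => (a x hx).ne (b x hx) c
  refine (handle (A := jm j fun x => mt x k false) (B := jm j fun x => mt x k true)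
    (b2 := jm j fun x => b k x 2) (b3 := jm j fun x => b k x 3) (p := pL (l k 0)) (q := pL (l k 1))
    ?_ (bo 0) (bo 1) (bo' (fun x hx => (v x 1).inv.1.mul (t x hx 0))
    fun x hx => (v x 1).inv.isUnit.mul (h.ub hx k 0))
    (bo' (fun x hx => (h.rel hx k).t) fun x hx => (h.rel hx k).u)
    (bo' (fun x hx => (h.rel hx k).tj) fun x hx => isUnit_cj _ (h.rel hx k).u)
    (bo' (fun x hx => (h.rel hx k).t') fun x hx => (h.rel hx k).u')
    (bo' (fun x hx => (h.rel hx k).tj') fun x hx => isUnit_cj _ (h.rel hx k).u') (un 0)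
    (jm_uni hj fun x _ => (v x 0).inv) (un 1) (un 2) (un 3) ?_ ?_ ?_ ?_ ?_ ?_ ?_ ?_ ?_ ?_).trans rfl
  · obtain ⟨x, hx, e⟩ := hj.pt
    refine isUnit_of_m0 ?_
    rw [show m0 (jm j fun x => mt x k true) = mt x k true from Matrix.ext fun a c => e _]
    exact det_ne (h.u hx k true)
  · rw [← jm_pm hj, ← jm_mul hj (rv 0) (RM.const _), ← jm_mul hj ((rv 0).mul (RM.const _)) (H.rb 0)]
    exact jm_cgr hj fun x hx => by rw [vL_pm]; exact (H.fac x hx).2.1
  · rw [← jm_pm hj, ← jm_mul hj (rv 1) (RM.const _), ← jm_mul hj ((rv 1).mul (RM.const _)) (H.rb 1),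
      ← jm_mul hj (H.rb 0) (rm_mt S k true)]
    exact jm_cgr hj fun x hx => by rw [vL_pm]; exact (H.fac x hx).2.2.1
  · rw [← jm_mul hj (rv 0) (ri 0), ← jm_one hj]
    exact jm_cgr hj fun x _ => mul_nonsing_inv _ ((isUnit_iff_isUnit_det _).1 (v x 0).isUnit)
  · rw [← jm_mul hj (h.rA k) (ri 0)]
    exact jm_cgr hj fun x hx => (h.rel hx k).e2
  · rw [← jm_mul hj ((h.rA k).cj _) (H.rb 0), ← jm_mul hj (rv 2) (((h.rA k).cj _).mul (H.rb 0))]
    exact jm_cgr hj fun x hx => (h.rel hx k).e1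
  · rw [← jm_pm hj, ← jm_mul hj (RM.const _) ((h.rA k).cj _), ← jm_mul hj (h.rA k) (RM.const _)]
    exact jm_cgr hj fun x _ => pm_cj _ _
  · rw [← jm_mul hj (rv 1) r0']
    exact jm_cgr hj fun x _ =>
      mul_nonsing_inv_cancel_left _ _ ((isUnit_iff_isUnit_det _).1 (v x 1).isUnit)
  · rw [← jm_mul hj (h.rB k) r0']
    exact jm_cgr hj fun x hx => (h.rel hx k).e3
  · rw [← jm_mul hj ((h.rB k).cj _) (H.rb 1), ← jm_mul hj (rv 3) (((h.rB k).cj _).mul (H.rb 1))]
    exact jm_cgr hj fun x hx => (h.rel hx k).e2'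
  · rw [← jm_pm hj, ← jm_mul hj (RM.const _) ((h.rB k).cj _), ← jm_mul hj (h.rB k) (RM.const _)]
    exact jm_cgr hj fun x _ => pm_cj _ _

theorem hi (k : Fin g) : HI S (fun i : Fin g × Kh n => lh (l i.1) i.2)
    (fun x i => ph (l i.1) (z i.1 x) (b i.1 x) i.2) k (L4 k (l k)) (fun x => b k x 3) ∧
    ∀ e, Mn S (TG (fun i : Fin g × Kh n => lh (l i.1) i.2) fun x i => ph (l i.1) (z i.1 x) (b i.1 x) i.2)
      fun x => (mt x k e).det := by
  have H := h.hs k
  have v : ∀ x i, Uni (vL (l k i) (z k x i)) := fun x i => (H.bw i).uni _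
  have t : ∀ x ∈ S, ∀ i, UT (b k x i) := fun x hx => (H.fac x hx).1
  have mA := fun a => h.ch.mn (k := (k, Sum.inr (false, a, a))) (by simp [lh, lc])
  have mB := fun a => h.ch.mn (k := (k, Sum.inr (true, a, a))) (by simp [lh, lc])
  simp only [ph] at mA mB
  have wA := fun a => (mA (pL (l k 0) a)).congr (g := fun x => cj (pL (l k 0))
    (cA (l k) (z k x) (b k x)) a a) fun x _ => cj_apply _ _ _ _
  have wB := fun a => (mB (pL (l k 1) a)).congr (g := fun x => cj (pL (l k 1))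
    (cB (l k) (z k x) (b k x)) a a) fun x _ => cj_apply _ _ _ _
  have m2 := fun a => (mA a).congr (g := fun x => b k x 2 a a) fun x hx => by
    rw [← (h.rel hx k).e2, (h.rel hx k).t.mul_diag (v x 0).inv.1, (v x 0).inv.2, mul_one]
  have m1 := fun a => ((wB a).inv.mul (m2 a)).congr (g := fun x => b k x 1 a a) fun x hx => by
    rw [← (h.rel hx k).e2', (v x 3).1.mul_diag ((h.rel hx k).tj'.mul (t x hx 1)), (v x 3).2, one_mul,
      (h.rel hx k).tj'.mul_diag (t x hx 1), inv_mul_cancel_left₀ ((wB a).2.1 x hx)]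
  have m0 := fun a => ((wA a).inv.mul (m1 a)).congr (g := fun x => b k x 0 a a) fun x hx => by
    rw [← (h.rel hx k).e1, (v x 2).1.mul_diag ((h.rel hx k).tj.mul (t x hx 0)), (v x 2).2, one_mul,
      (h.rel hx k).tj.mul_diag (t x hx 0), inv_mul_cancel_left₀ ((wA a).2.1 x hx)]
  have m0' := fun a => (m0 a).congr (g := fun x => ((vL (l k 1) (z k x 1))⁻¹ * b k x 0) a a)
    fun x hx => by rw [(v x 1).inv.1.mul_diag (t x hx 0), (v x 1).inv.2, one_mul]
  have m3 := fun a => ((mB a).mul (m0' a)).congr (g := fun x => b k x 3 a a) fun x hx => by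
    rw [← (h.rel hx k).t'.mul_diag ((v x 1).inv.1.mul (t x hx 0)), (h.rel hx k).e3]
  have dX : ∀ x i, (XL (l k i) (z k x i)).det = (pm ℂ (pL (l k i))).det := fun x i => by
    rw [← vL_pm, det_mul, (v x i).1.det]; simp [(v x i).2]
  have dA := ((Mn.const (det_ne (isUnit_pm (pL (l k 0))))).mul
    (Mn.prod Finset.univ fun a _ => m0 a)).congr (g := fun x => (mt x k false).det) fun x hx => by
      rw [(H.fac x hx).2.1, det_mul, dX, (t x hx 0).det]
  have dB := ((Mn.prod Finset.univ fun a _ => m0 a).inv.mul ((Mn.const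
    (det_ne (isUnit_pm (pL (l k 1))))).mul (Mn.prod Finset.univ fun a _ => m1 a))).congr
      (g := fun x => (mt x k true).det) fun x hx => by
      rw [← (t x hx 0).det, ← (t x hx 1).det, ← dX x, ← det_mul, ← (H.fac x hx).2.2.1, det_mul,
        inv_mul_cancel_left₀ (det_ne (h.ub hx k 0))]
  refine ⟨⟨nd_L4 k H.bw, fun q hq => ?_, fun q hq τ x hx => ?_, H.rb 3, fun x hx => t x hx 3, m3,
    fun x hx => ?_, ⟨_, (Lm.sum Finset.univ fun a _ => Lm.wg (wA a) (m0 a)).neg.add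
      ((Lm.sum Finset.univ fun a _ => Lm.wg (wB a) (m1 a)).add
        (Lm.sum Finset.univ fun a _ => Lm.wg (mB a) (m0' a)).neg).neg, fun j hj => ?_⟩,
    fun x hx x' hx' e => ?_, fun τ x hx => ?_⟩, fun e => by cases e; exacts [dA, dB]⟩
  · obtain ⟨i, e, he, a⟩ := mem_L4 hq
    rw [a]; exact ⟨rfl, if_pos he⟩
  · obtain ⟨i, e, he, a⟩ := mem_L4 hq
    rw [a, wtL_L4 k _ i e he]; exact (h.tw τ hx k).1 i e
  · obtain ⟨_, e0, e1, e2, e3⟩ := H.fac x hx
    simp only [L4, XL_append, XL_tg, ph, cmm, Matrix.mul_assoc] at e0 e1 e2 e3 ⊢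
    rw [← e3, ← Matrix.mul_assoc (XL (l k 2) _), ← e2, ← Matrix.mul_assoc (XL (l k 1) _),
      ← Matrix.mul_assoc (XL (l k 1) _), ← e1, ← Matrix.mul_assoc (XL (l k 0) _),
      ← Matrix.mul_assoc (XL (l k 0) _), ← Matrix.mul_assoc (XL (l k 0) _), ← e0]
    simp only [Matrix.mul_assoc]
  · exact h.lift k hj
  · have em : ∀ t, mt x k t = mt x' k t := fun t => by
      rw [← h.back hx, ← h.back hx']
      exact congrArg (fh (l k) · t) (funext e)
    have f := H.fac x' hx'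
    simp only [← em] at f
    exact congrFun (h.uq hx f (H.z0 x')).2 3
  · have := (h.tw τ hx k).2.1
    simpa only [Iw, L4, pL_append, pL_tg, vp, cons_val, mul_assoc] using this

end PS

theorem cells (bru : BRU) : CELLS := fun n g => by
  have e0 : Yh n g ⊆ Gh n g := fun x hx k e => unit_of_det (hx.1 k e)
  have e : Yh n g = Gh n g ∩ Yh n g := (Set.inter_eq_right.2 e0).symm
  rw [e]
  refine (strata bru Finset.univ).inter _ ?_
  rintro S ⟨l, z, b, eS, h⟩
  rcases S.eq_empty_or_nonempty with h0 | ⟨x, hx⟩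
  · rw [h0, Set.empty_inter]; exact Pav.nil
  have hG : x ∈ Gh n g := (eS ▸ hx).1
  have r := fun k => ((h k (by simp)).fac x hx).rel (h k (by simp)).bw (hG k _) (hG k _)
  have ps : PS S l z b := ⟨fun x => by simp [eS], fun k => h k (by simp), fun k => (r k).p2,
    fun k => (r k).p3⟩
  refine asm (fun k => (ps.hi k).1) ps.ch ps.stb ps.si ?_ fun k => (ps.hi k).2
  rw [Fintype.sum_prod_type]
  simp only [fun k => sum_lh (ps.hs k).bw (ps.p2 k) (ps.p3 k), Finset.sum_add_distrib, L4, tg,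
    List.length_append, List.length_map, Fin.sum_univ_four, Finset.sum_const, Finset.card_univ,
    Fintype.card_fin, smul_eq_mul]
  ring

end P275BC
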