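import Mathlib

/-! Betti side of P275: pavings by cells, jets, the central extension carrying the 2-form. -/

namespace P275BC

open MvPolynomial Matrix

section Gen
variable {ι : Type}

/-- Zariski closed subsets of affine space. -/
def ZC (C : Set (ι → ℂ)) : Prop :=
  ∃ s : Set (MvPolynomial ι ℂ), C = {x | ∀ P ∈ s, eval x P = 0}

/-- `f` is regular on `Y`: Zariski locally on `Y` a quotient of polynomials. -/
def Reg (Y : Set (ι → ℂ)) (f : (ι → ℂ) → ℂ) : Prop :=
  ∀ y ∈ Y, ∃ P Q : MvPolynomial ι ℂ, eval y Q ≠ 0 ∧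
    ∀ x ∈ Y, eval x Q ≠ 0 → f x = eval x P / eval x Q

/-- Paving of a set by sets of the class `c` (a decision tree with Zariski closed cuts). -/
inductive Pav (c : Set (ι → ℂ) → Prop) : Set (ι → ℂ) → Prop
  | nil : Pav c ∅
  | one (S : Set (ι → ℂ)) : c S → Pav c S
  | cut (Y C : Set (ι → ℂ)) : ZC C → Pav c (Y \ C) → Pav c (Y ∩ C) → Pav c Y

/-- Torus times affine space. -/
def Tor (α β : Type) : Set (α ⊕ β → ℂ) := {w | ∀ i, w (Sum.inl i) ≠ 0}

/-- A biregular bijection of `S` with a torus times an affine space. -/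
structure Cell (S : Set (ι → ℂ)) (α β : Type) where
  ψ : (ι → ℂ) → α ⊕ β → ℂ
  φ : (α ⊕ β → ℂ) → ι → ℂ
  rψ : ∀ k, Reg S fun x => ψ x k
  rφ : ∀ i, Reg (Tor α β) fun w => φ w i
  mψ : ∀ x ∈ S, ψ x ∈ Tor α β
  mφ : ∀ w ∈ Tor α β, φ w ∈ S
  li : ∀ x ∈ S, φ (ψ x) = x
  ri : ∀ w ∈ Tor α β, ψ (φ w) = w

/-- The character of the torus `ρ → ℂˣ` with exponents `χ`. -/
noncomputable def chr {ρ : Type} [Fintype ρ] (χ : ρ → ℤ) (τ : ρ → ℂˣ) : ℂ :=
  ((∏ a, τ a ^ χ a : ℂˣ) : ℂ)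

/-- Diagonal torus action on affine space with weights `W`. -/
noncomputable def actW {ρ : Type} [Fintype ρ] (W : ι → ρ → ℤ) (τ : ρ → ℂˣ) (x : ι → ℂ) :
    ι → ℂ := fun i => chr (W i) τ * x i

/-- `S` is stable under the torus. -/
def Stb {ρ : Type} [Fintype ρ] (W : ι → ρ → ℤ) (S : Set (ι → ℂ)) : Prop :=
  ∀ τ, ∀ x ∈ S, actW W τ x ∈ S

/-- `f` is semi-invariant of weight `χ` on `S`. -/
def SI {ρ : Type} [Fintype ρ] (W : ι → ρ → ℤ) (S : Set (ι → ℂ)) (χ : ρ → ℤ)
    (f : (ι → ℂ) → ℂ) : Prop :=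
  ∀ τ, ∀ x ∈ S, f (actW W τ x) = chr χ τ * f x

/-- The cell is stable and all its coordinates are semi-invariant. -/
def Cell.Eqv {S : Set (ι → ℂ)} {α β ρ : Type} [Fintype ρ] (c : Cell S α β)
    (W : ι → ρ → ℤ) : Prop :=
  Stb W S ∧ ∀ k, ∃ χ, SI W S χ fun x => c.ψ x k

/-- `f` is a constant times a monomial in the torus coordinates of the cell. -/
def Cell.Mon {S : Set (ι → ℂ)} {α β : Type} [Fintype α] (c : Cell S α β)
    (f : (ι → ℂ) → ℂ) : Prop :=
  ∃ (c0 : ℂ) (e : α → ℤ), c0 ≠ 0 ∧ ∀ x ∈ S, f x = c0 * ∏ i, c.ψ x (Sum.inl i) ^ e i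

/-- First order jets in two directions. -/
abbrev K0 : Type := TrivSqZeroExt ℂ (ℂ × ℂ)

/-- The jet with value `x` and derivatives `u`, `v`. -/
def jt (x u v : ℂ) : K0 := (x, (u, v))

/-- Logarithmic derivatives of a jet. -/
noncomputable def lg (a : K0) : ℂ × ℂ := (a.fst⁻¹ * a.snd.1, a.fst⁻¹ * a.snd.2)

/-- A point of `S` with two Zariski tangent vectors, as a jet map on regular functions. -/
structure Ctx (S : Set (ι → ℂ)) (j : ((ι → ℂ) → ℂ) → K0) : Prop where
  cst : ∀ c : ℂ, j (fun _ => c) = jt c 0 0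
  add : ∀ f g, Reg S f → Reg S g → j (fun x => f x + g x) = j f + j g
  mul : ∀ f g, Reg S f → Reg S g → j (fun x => f x * g x) = j f * j g
  cgr : ∀ f g, (∀ x ∈ S, f x = g x) → j f = j g
  pt : ∃ x ∈ S, ∀ f, (j f).fst = f x

/-- `w` is the constant logarithmic 2-form with matrix `Ω` in the torus coordinates. -/
def Cell.LogC {S : Set (ι → ℂ)} {α β : Type} [Fintype α] (c : Cell S α β)
    (w : (((ι → ℂ) → ℂ) → K0) → ℂ) (Ω : Matrix α α ℂ) : Prop :=
  ∀ j, Ctx S j → w j = ∑ i, ∑ k, Ω i k *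
    ((lg (j fun x => c.ψ x (Sum.inl i))).1 * (lg (j fun x => c.ψ x (Sum.inl k))).2)

/-- The polynomial map with components `q`. -/
noncomputable def qm {κ : Type} (q : κ → MvPolynomial ι ℂ) (x : ι → ℂ) : κ → ℂ :=
  fun k => eval x (q k)

/-- Quotient package: `q` is invariant under the relation `r` (orbit relation of a group) on `R`
and has rational local sections. -/
structure QP {κ : Type} (r : (ι → ℂ) → (ι → ℂ) → Prop) (R : Set (ι → ℂ))
    (q : κ → MvPolynomial ι ℂ) : Prop where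
  inv : ∀ x ∈ R, ∀ y, r x y → qm q y = qm q x
  sec : ∀ x ∈ R, ∃ (P : ι → MvPolynomial κ ℂ) (Q : MvPolynomial κ ℂ), eval (qm q x) Q ≠ 0 ∧
    ∀ y ∈ R, eval (qm q y) Q ≠ 0 → r y fun i => eval (qm q y) (P i) / eval (qm q y) Q

/-- Orbit relation of the torus. -/
def Orb {ρ : Type} [Fintype ρ] (W : ι → ρ → ℤ) (x y : ι → ℂ) : Prop := ∃ τ, y = actW W τ x

end Gen

/-- Elements of the central extension: a group element, two right logarithmic derivatives and the
central part. -/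
@[ext] structure HG (n : ℕ) where
  g : GL (Fin n) ℂ
  a : Matrix (Fin n) (Fin n) ℂ
  b : Matrix (Fin n) (Fin n) ℂ
  z : ℂ

namespace HG
variable {n : ℕ}

/-- Adjoint action. -/
noncomputable def ad (g : GL (Fin n) ℂ) (M : Matrix (Fin n) (Fin n) ℂ) :
    Matrix (Fin n) (Fin n) ℂ := (g : Matrix (Fin n) (Fin n) ℂ) * M * ((g⁻¹ : GL (Fin n) ℂ) : Matrix _ _ ℂ)

theorem ad_mul (g h : GL (Fin n) ℂ) (M : Matrix (Fin n) (Fin n) ℂ) :
    ad (g * h) M = ad g (ad h M) := by
  simp only [ad, _root_.mul_inv_rev, Units.val_mul, Matrix.mul_assoc]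

theorem ad_one (M : Matrix (Fin n) (Fin n) ℂ) : ad 1 M = M := by simp [ad]

theorem ad_add (g : GL (Fin n) ℂ) (M N : Matrix (Fin n) (Fin n) ℂ) :
    ad g (M + N) = ad g M + ad g N := by simp only [ad, Matrix.mul_add, Matrix.add_mul]

theorem ad_neg (g : GL (Fin n) ℂ) (M : Matrix (Fin n) (Fin n) ℂ) : ad g (-M) = -ad g M := by
  simp only [ad, Matrix.mul_neg, Matrix.neg_mul]

theorem ad_zero (g : GL (Fin n) ℂ) : ad g 0 = 0 := by simp [ad]

theorem ad_mul_ad (g : GL (Fin n) ℂ) (M N : Matrix (Fin n) (Fin n) ℂ) :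
    ad g M * ad g N = ad g (M * N) := by
  simp only [ad, Matrix.mul_assoc, Units.inv_mul_cancel_left]

theorem tr_ad (g : GL (Fin n) ℂ) (M : Matrix (Fin n) (Fin n) ℂ) : trace (ad g M) = trace M := by
  rw [ad, Matrix.trace_mul_comm, ← Matrix.mul_assoc, Units.inv_mul, Matrix.one_mul]

theorem tr_ad_ad (g : GL (Fin n) ℂ) (M N : Matrix (Fin n) (Fin n) ℂ) :
    trace (ad g M * ad g N) = trace (M * N) := by rw [ad_mul_ad, tr_ad]

noncomputable instance : Mul (HG n) := ⟨fun x y => ⟨x.g * y.g, x.a + ad x.g y.a, x.b + ad x.g y.b,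
  x.z + y.z + (trace (x.a * ad x.g y.b) - trace (x.b * ad x.g y.a))⟩⟩
noncomputable instance : One (HG n) := ⟨⟨1, 0, 0, 0⟩⟩
noncomputable instance : Inv (HG n) := ⟨fun x => ⟨x.g⁻¹, -ad x.g⁻¹ x.a, -ad x.g⁻¹ x.b, -x.z⟩⟩

@[simp] theorem mul_g (x y : HG n) : (x * y).g = x.g * y.g := rfl
@[simp] theorem mul_a (x y : HG n) : (x * y).a = x.a + ad x.g y.a := rfl
@[simp] theorem mul_b (x y : HG n) : (x * y).b = x.b + ad x.g y.b := rfl
@[simp] theorem mul_z (x y : HG n) : (x * y).z =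
    x.z + y.z + (trace (x.a * ad x.g y.b) - trace (x.b * ad x.g y.a)) := rfl
@[simp] theorem one_g : (1 : HG n).g = 1 := rfl
@[simp] theorem one_a : (1 : HG n).a = 0 := rfl
@[simp] theorem one_b : (1 : HG n).b = 0 := rfl
@[simp] theorem one_z : (1 : HG n).z = 0 := rfl
@[simp] theorem inv_g (x : HG n) : (x⁻¹).g = x.g⁻¹ := rfl
@[simp] theorem inv_a (x : HG n) : (x⁻¹).a = -ad x.g⁻¹ x.a := rfl
@[simp] theorem inv_b (x : HG n) : (x⁻¹).b = -ad x.g⁻¹ x.b := rfl
@[simp] theorem inv_z (x : HG n) : (x⁻¹).z = -x.z := rfl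

noncomputable instance : Group (HG n) :=
  Group.ofLeftAxioms
    (fun x y w => by
      ext1
      · simp [mul_assoc]
      · simp [ad_mul, ad_add, add_assoc]
      · simp [ad_mul, ad_add, add_assoc]
      · simp only [mul_z, mul_a, mul_b, mul_g, ad_mul, ad_add, Matrix.add_mul, Matrix.mul_add,
          trace_add, tr_ad_ad]
        ring)
    (fun x => by ext1 <;> simp [ad_one])
    (fun x => by
      ext1
      · simp
      · simp
      · simp
      · simp only [mul_z, inv_z, inv_a, inv_b, inv_g, Matrix.neg_mul, trace_neg, tr_ad_ad, one_z]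
        rw [Matrix.trace_mul_comm x.a]; ring)

/-- The unit of an invertible matrix (junk value `1`). -/
noncomputable def un (M : Matrix (Fin n) (Fin n) ℂ) : GL (Fin n) ℂ :=
  open Classical in if h : IsUnit M then h.unit else 1

/-- The lift of a matrix of jets with central part `0`. -/
noncomputable def sj (M : Matrix (Fin n) (Fin n) K0) : HG n :=
  ⟨un (M.map fun a => a.fst), (M.map fun a => a.snd.1) * (M.map fun a => a.fst)⁻¹,
    (M.map fun a => a.snd.2) * (M.map fun a => a.fst)⁻¹, 0⟩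

/-- Central elements. -/
noncomputable def cz (c : ℂ) : HG n := ⟨1, 0, 0, c⟩

end HG

/-- Coordinates of `2g` matrices. -/
abbrev Ix (n g : ℕ) : Type := Fin g × Bool × Fin n × Fin n

section Rep
variable {n g : ℕ}

/-- The matrices `A k = mt x k false`, `B k = mt x k true`. -/
def mt {K : Type} (x : Ix n g → K) (k : Fin g) (b : Bool) : Matrix (Fin n) (Fin n) K :=
  Matrix.of fun a c => x (k, b, a, c)

/-- The product of the commutators. -/
noncomputable def mu (x : Ix n g → ℂ) : Matrix (Fin n) (Fin n) ℂ :=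
  (List.ofFn fun k => mt x k false * mt x k true * (mt x k false)⁻¹ * (mt x k true)⁻¹).prod

/-- The product of the commutators in the central extension. -/
noncomputable def muJ (x : Ix n g → K0) : HG n :=
  (List.ofFn fun k => HG.sj (mt x k false) * HG.sj (mt x k true) * (HG.sj (mt x k false))⁻¹ *
    (HG.sj (mt x k true))⁻¹).prod

/-- The 2-form at the point `x` on the tangent vectors `u`, `v`. -/
noncomputable def om (x u v : Ix n g → ℂ) : ℂ := (muJ fun i => jt (x i) (u i) (v i)).z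

/-- The 2-form on a jet map. -/
noncomputable def omC (n g : ℕ) (j : ((Ix n g → ℂ) → ℂ) → K0) : ℂ := (muJ fun i => j fun x => x i).z

/-- Weights of conjugation by the diagonal torus. -/
def wT (n g : ℕ) (i : Ix n g) : Fin n → ℤ := Pi.single i.2.2.1 1 - Pi.single i.2.2.2 1

/-- Weights of conjugation by the diagonal matrices with first entry one (the adjoint torus). -/
def wA (r g : ℕ) (i : Ix (r + 1) g) : Fin r → ℤ := fun a => wT (r + 1) g i a.succ

/-- Invertible tuples whose commutator product is upper triangular. -/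
def Yh (n g : ℕ) : Set (Ix n g → ℂ) :=
  {x | (∀ k b, (mt x k b).det ≠ 0) ∧ ∀ a c, c < a → mu x a c = 0}

/-- Tuples in `SL n` whose commutator product lies in `t U`. -/
def Rt (g : ℕ) (t : Fin n → ℂ) : Set (Ix n g → ℂ) :=
  {x | (∀ k b, (mt x k b).det = 1) ∧ (∀ a c, c < a → mu x a c = 0) ∧ ∀ a, mu x a a = t a}

/-- Tuples in `SL n` whose commutator product is the scalar `ζ`. -/
def Rz (n g : ℕ) (ζ : ℂ) : Set (Ix n g → ℂ) :=
  {x | (∀ k b, (mt x k b).det = 1) ∧ mu x = ζ • (1 : Matrix (Fin n) (Fin n) ℂ)}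

/-- Generic eigenvalues. -/
def Gnc (t : Fin n → ℂ) : Prop :=
  ∏ a, t a = 1 ∧ ∀ s : Finset (Fin n), s.Nonempty → s ≠ Finset.univ → ∏ a ∈ s, t a ≠ 1

/-- Tangent space of `Rt` at `x`. -/
def V1 (x u : Ix n g → ℂ) : Prop :=
  (∀ k b, trace (mt u k b * (mt x k b)⁻¹) = 0) ∧
    ∀ a c, c ≤ a → (muJ fun i => jt (x i) (u i) 0).a a c = 0

/-- Conjugation orbits. -/
def OrbG (x y : Ix n g → ℂ) : Prop :=
  ∃ h : GL (Fin n) ℂ, ∀ k b, mt y k b = HG.ad h (mt x k b)

end Rep

end P275BC
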