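import Vale.Agent.P275BC.Mat

/-! Calculus in the central extension. -/

namespace P275BC

open Matrix Equiv HG TrivSqZeroExt

variable {n : ℕ}

/-- Matrices of jets. -/
abbrev MJ (n : ℕ) : Type := Matrix (Fin n) (Fin n) K0

/-- Value and derivatives of a matrix of jets. -/
def m0 (M : MJ n) : Matrix (Fin n) (Fin n) ℂ := M.map fun a => a.fst
def m1 (M : MJ n) : Matrix (Fin n) (Fin n) ℂ := M.map fun a => a.snd.1
def m2 (M : MJ n) : Matrix (Fin n) (Fin n) ℂ := M.map fun a => a.snd.2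

theorem m0_mul (M N : MJ n) : m0 (M * N) = m0 M * m0 N :=
  Matrix.map_mul (f := (fstHom ℂ ℂ (ℂ × ℂ)).toRingHom)

theorem m0_one : m0 (1 : MJ n) = 1 := by
  ext a b; simp only [m0, map_apply, one_apply]; split_ifs <;> rfl

theorem m1_mul (M N : MJ n) : m1 (M * N) = m0 M * m1 N + m1 M * m0 N := by
  ext a b
  simp only [m0, m1, map_apply, mul_apply, snd_sum, Prod.fst_sum, snd1_mul, Matrix.add_apply,
    ← Finset.sum_add_distrib]
  exact Finset.sum_congr rfl fun c _ => by ring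

theorem m2_mul (M N : MJ n) : m2 (M * N) = m0 M * m2 N + m2 M * m0 N := by
  ext a b
  simp only [m0, m2, map_apply, mul_apply, snd_sum, Prod.snd_sum, snd2_mul, Matrix.add_apply,
    ← Finset.sum_add_distrib]
  exact Finset.sum_congr rfl fun c _ => by ring

theorem isUnit_m0 {M : MJ n} (h : IsUnit M) : IsUnit (m0 M) := by
  obtain ⟨u, rfl⟩ := h
  exact ⟨⟨m0 u, m0 (u⁻¹ : (MJ n)ˣ), by rw [← m0_mul, Units.mul_inv, m0_one],
    by rw [← m0_mul, Units.inv_mul, m0_one]⟩, rfl⟩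

theorem isUnit_of_m0 {M : MJ n} (h : (m0 M).det ≠ 0) : IsUnit M := by
  rw [isUnit_iff_isUnit_det]
  refine K0.isUnit ?_
  have := (fstHom ℂ ℂ (ℂ × ℂ)).toRingHom.map_det M
  exact fun e => h (this.symm.trans e)

theorem un_val {M : Matrix (Fin n) (Fin n) ℂ} (h : IsUnit M) :
    (un M : Matrix (Fin n) (Fin n) ℂ) = M := by simp [un, h]

theorem ad_un {M : Matrix (Fin n) (Fin n) ℂ} (h : IsUnit M) (X : Matrix (Fin n) (Fin n) ℂ) :
    ad (un M) X = M * X * M⁻¹ := by rw [ad, Matrix.coe_units_inv, un_val h]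

theorem sj_def (M : MJ n) : sj M = ⟨un (m0 M), m1 M * (m0 M)⁻¹, m2 M * (m0 M)⁻¹, 0⟩ := rfl

/-- The cocycle. -/
noncomputable def co (M N : MJ n) : ℂ :=
  trace ((m0 M)⁻¹ * m1 M * (m2 N * (m0 N)⁻¹)) - trace ((m0 M)⁻¹ * m2 M * (m1 N * (m0 N)⁻¹))

theorem mul_cz (x : HG n) (c : ℂ) : x * cz c = ⟨x.g, x.a, x.b, x.z + c⟩ := by
  ext1 <;> simp [cz, ad_zero]

theorem cz_mul (x : HG n) (c : ℂ) : cz c * x = x * cz c := by
  rw [mul_cz]; ext1 <;> simp [cz, ad_one, add_comm]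

theorem cz_add (c d : ℂ) : (cz c : HG n) * cz d = cz (c + d) := by rw [mul_cz]; rfl

theorem cz_zero : (cz 0 : HG n) = 1 := rfl

theorem cz_inv (c : ℂ) : (cz c : HG n)⁻¹ = cz (-c) :=
  inv_eq_of_mul_eq_one_right (by rw [cz_add, add_neg_cancel, cz_zero])

theorem cz_left (x y : HG n) (c : ℂ) : x * (cz c * y) = cz c * (x * y) := by
  rw [← mul_assoc, ← cz_mul, mul_assoc]

theorem sj_mul {M N : MJ n} (hM : IsUnit M) (hN : IsUnit N) :
    sj M * sj N = sj (M * N) * cz (co M N) := by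
  have h0 := isUnit_m0 hM
  have h1 := isUnit_m0 hN
  have d0 := (isUnit_iff_isUnit_det _).1 h0
  have d1 := (isUnit_iff_isUnit_det _).1 h1
  rw [mul_cz]
  simp only [sj_def]
  ext1
  · ext1; simp only [mul_g, Units.val_mul, m0_mul, un_val h0, un_val h1, un_val (h0.mul h1)]
  · simp only [mul_a, ad_un h0, m0_mul, m1_mul, Matrix.mul_inv_rev, Matrix.add_mul, Matrix.mul_assoc,
      mul_nonsing_inv_cancel_left _ _ d1, add_comm]
  · simp only [mul_b, ad_un h0, m0_mul, m2_mul, Matrix.mul_inv_rev, Matrix.add_mul, Matrix.mul_assoc,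
      mul_nonsing_inv_cancel_left _ _ d1, add_comm]
  · simp only [mul_z, ad_un h0, co, Matrix.mul_assoc, nonsing_inv_mul_cancel_left _ _ d0, zero_add]
    rw [trace_mul_comm (m0 M)⁻¹, trace_mul_comm (m0 M)⁻¹]
    simp only [Matrix.mul_assoc]

theorem sj_one : sj (1 : MJ n) = 1 := by
  have e1 : m1 (1 : MJ n) = 0 := by
    ext a b; simp only [m1, map_apply, one_apply]; split_ifs <;> rfl
  have e2 : m2 (1 : MJ n) = 0 := by
    ext a b; simp only [m2, map_apply, one_apply]; split_ifs <;> rfl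
  rw [sj_def, e1, e2, m0_one]
  ext1
  · ext1; exact un_val isUnit_one
  all_goals simp

theorem m1_pm (p : Perm (Fin n)) : m1 (pm K0 p) = 0 := by
  ext a b; simp only [m1, pm, map_apply, of_apply]; split_ifs <;> rfl

theorem m2_pm (p : Perm (Fin n)) : m2 (pm K0 p) = 0 := by
  ext a b; simp only [m2, pm, map_apply, of_apply]; split_ifs <;> rfl

theorem sj_pm_mul (p : Perm (Fin n)) {M : MJ n} (h : IsUnit M) :
    sj (pm K0 p) * sj M = sj (pm K0 p * M) := by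
  rw [sj_mul (isUnit_pm p) h, co, m1_pm, m2_pm]; simp [cz_zero]

theorem sj_mul_pm (p : Perm (Fin n)) {M : MJ n} (h : IsUnit M) :
    sj M * sj (pm K0 p) = sj (M * pm K0 p) := by
  rw [sj_mul h (isUnit_pm p), co, m1_pm, m2_pm]; simp [cz_zero]

/-- The wedge of two logarithmic derivatives. -/
noncomputable def wg (a b : K0) : ℂ := (lg a).1 * (lg b).2 - (lg a).2 * (lg b).1

theorem wg_one_left (b : K0) : wg 1 b = 0 := by simp [wg, lg_one]
theorem wg_one_right (b : K0) : wg b 1 = 0 := by simp [wg, lg_one]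

/-- Upper triangular with invertible diagonal. -/
def Bo (M : MJ n) : Prop := UT M ∧ ∀ a, IsUnit (M a a)

theorem Bo.isUnit {M : MJ n} (h : Bo M) : IsUnit M := h.1.isUnit h.2

theorem Uni.bo {M : MJ n} (h : Uni M) : Bo M := ⟨h.1, fun a => by rw [h.2]; exact isUnit_one⟩

theorem Bo.mul {M N : MJ n} (h : Bo M) (k : Bo N) : Bo (M * N) :=
  ⟨h.1.mul k.1, fun a => by rw [h.1.mul_diag k.1]; exact (h.2 a).mul (k.2 a)⟩

theorem bo_diag {H : Fin n → K0} (h : ∀ a, IsUnit (H a)) : Bo (diagonal H) :=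
  ⟨ut_diag H, fun a => by rw [diagonal_apply_eq]; exact h a⟩

theorem co_bo {M N : MJ n} (hM : Bo M) (hN : Bo N) : co M N = ∑ a, wg (M a a) (N a a) := by
  have u0 : ∀ {M : MJ n}, Bo M → UT (m0 M) := fun h a c e => by simp [m0, h.1 a c e]
  have u1 : ∀ {M : MJ n}, Bo M → UT (m1 M) := fun h a c e => by simp [m1, h.1 a c e]
  have u2 : ∀ {M : MJ n}, Bo M → UT (m2 M) := fun h a c e => by simp [m2, h.1 a c e]
  have ui : ∀ {M : MJ n}, Bo M → UT (m0 M)⁻¹ := fun h => (u0 h).inv (isUnit_m0 h.isUnit)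
  have ud : ∀ {M : MJ n}, Bo M → ∀ a, (m0 M)⁻¹ a a = (M a a).fst⁻¹ := fun h a =>
    eq_inv_of_mul_eq_one_left ((u0 h).inv_diag (isUnit_m0 h.isUnit) a)
  simp only [co, trace, diag_apply, ← Finset.sum_sub_distrib]
  refine Finset.sum_congr rfl fun a _ => ?_
  rw [((ui hM).mul (u1 hM)).mul_diag ((u2 hN).mul (ui hN)), (ui hM).mul_diag (u1 hM),
    (u2 hN).mul_diag (ui hN), ((ui hM).mul (u2 hM)).mul_diag ((u1 hN).mul (ui hN)),
    (ui hM).mul_diag (u2 hM), (u1 hN).mul_diag (ui hN), ud hM, ud hN]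
  simp only [wg, lg, m1, m2, map_apply]
  ring

theorem sj_bo {M N : MJ n} (hM : Bo M) (hN : Bo N) :
    sj M * sj N = sj (M * N) * cz (∑ a, wg (M a a) (N a a)) := by
  rw [sj_mul hM.isUnit hN.isUnit, co_bo hM hN]

theorem sj_uni_mul {M N : MJ n} (hM : Uni M) (hN : Bo N) : sj M * sj N = sj (M * N) := by
  rw [sj_bo hM.bo hN]; simp [hM.2, wg_one_left, cz_zero]

theorem sj_mul_uni {M N : MJ n} (hM : Bo M) (hN : Uni N) : sj M * sj N = sj (M * N) := by
  rw [sj_bo hM hN.bo]; simp [hN.2, wg_one_right, cz_zero]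

theorem sj_XS (s : Sr n) (z : K0) : sj (XS s z) = sj (tv s z) * sj (pm K0 s.sw) :=
  (sj_mul_pm _ (uni_tv' s z).isUnit).symm

theorem sj_diag_pm {H : Fin n → K0} (h : ∀ a, IsUnit (H a)) (p : Perm (Fin n)) (x : HG n) :
    sj (diagonal H) * (sj (pm K0 p) * x) = sj (pm K0 p) * (sj (diagonal fun a => H (p a)) * x) := by
  rw [← mul_assoc, ← mul_assoc, sj_mul_pm _ (bo_diag h).isUnit,
    sj_pm_mul _ (bo_diag fun a => h (p a)).isUnit, diag_pm]

theorem sj_diag_tv {H : Fin n → K0} (h : ∀ a, IsUnit (H a)) (s : Sr n) {z r : K0}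
    (e : r * H s.hi = H s.lo * z) (x : HG n) :
    sj (diagonal H) * (sj (tv s z) * x) = sj (tv s r) * (sj (diagonal H) * x) := by
  rw [← mul_assoc, ← mul_assoc, sj_mul_uni (bo_diag h) (uni_tv' s z),
    sj_uni_mul (uni_tv' s r) (bo_diag h), diag_tv H _ _ e]

theorem sj_pm_tv (p : Perm (Fin n)) (s : Sr n) (r : K0) (h : p s.lo < p s.hi) (x : HG n) :
    sj (pm K0 p) * (sj (tv s r) * x) =
      sj (transvection (p s.lo) (p s.hi) r) * (sj (pm K0 p) * x) := by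
  rw [← mul_assoc, ← mul_assoc, sj_pm_mul _ (uni_tv' s r).isUnit,
    sj_mul_pm _ (uni_tv h r).isUnit, pm_tv]

theorem sj_pm_pm (p q : Perm (Fin n)) (x : HG n) :
    sj (pm K0 p) * (sj (pm K0 q) * x) = sj (pm K0 (p * q)) * x := by
  rw [← mul_assoc, sj_pm_mul _ (isUnit_pm q), pm_mul_pm]

theorem sj_uni_XS (s : Sr n) {U : MJ n} (h : Uni U) (z : K0) :
    sj U * sj (XS s z) = sj (XS s (z + U s.lo s.hi)) * sj (vv s U z) := by
  rw [sj_XS, sj_XS, ← mul_assoc, sj_mul_uni h.bo (uni_tv' s z), mul_tv_eq,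
    ← sj_mul_uni (uni_tv' s _).bo (uni_v0 s h z), mul_assoc, mul_assoc,
    sj_mul_pm _ (uni_v0 s h z).isUnit, v0_pm, sj_pm_mul _ (uni_vv s h z).isUnit]

theorem m0_tv (s : Sr n) (z : K0) : m0 (tv s z) = tv s z.fst := by
  ext a b
  simp only [m0, map_apply, transvection, Matrix.add_apply, one_apply, single_apply, fst_add]
  split_ifs <;> simp

theorem m1_tv (s : Sr n) (z : K0) : m1 (tv s z) = single s.lo s.hi z.snd.1 := by
  ext a b
  simp only [m1, map_apply, transvection, Matrix.add_apply, one_apply, single_apply, snd_add]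
  split_ifs <;> simp

theorem m2_tv (s : Sr n) (z : K0) : m2 (tv s z) = single s.lo s.hi z.snd.2 := by
  ext a b
  simp only [m2, map_apply, transvection, Matrix.add_apply, one_apply, single_apply, snd_add]
  split_ifs <;> simp

theorem co_XS_tv (s : Sr n) {z w : K0} (h : w * z = 1) : co (XS s z) (tv s (-w)) = 0 := by
  have ti : ∀ c : ℂ, (tv s c)⁻¹ = tv s (-c) := fun c =>
    inv_eq_right_inv (by rw [tv_mul, add_neg_cancel, tv_zero])
  have a1 : ∀ c d : ℂ, single s.lo s.hi c * tv s d = single s.lo s.hi c := fun c d => by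
    rw [tv, transvection, Matrix.mul_add, Matrix.mul_one, single_mul_single_of_ne _ _ _ _ s.ne.symm,
      add_zero]
  have a2 : ∀ c d : ℂ, tv s d * single s.lo s.hi c = single s.lo s.hi c := fun c d => by
    rw [tv, transvection, Matrix.add_mul, Matrix.one_mul, single_mul_single_of_ne _ _ _ _ s.ne.symm,
      add_zero]
  have a3 : ∀ c : ℂ, single s.lo s.hi c = c • single s.lo s.hi (1 : ℂ) := fun c => by
    rw [smul_single, smul_eq_mul, mul_one]
  have h0 : w.fst * z.fst = 1 := by rw [← fst_mul, h, fst_one]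
  have h1 := snd1_mul w z
  have h2 := snd2_mul w z
  rw [h] at h1 h2
  simp only [snd_one, Prod.fst_zero, Prod.snd_zero] at h1 h2
  simp only [co, XS, m0_mul, m1_mul, m2_mul, m1_pm, m2_pm, m0_tv, m1_tv, m2_tv, Matrix.mul_zero,
    zero_add, Matrix.mul_inv_rev, ti, a1, Matrix.mul_assoc]
  simp only [← Matrix.mul_assoc (tv s _), a2]
  rw [a3 z.snd.1, a3 z.snd.2, a3 (-w).snd.1, a3 (-w).snd.2]
  simp only [Matrix.smul_mul, Matrix.mul_smul, trace_smul, smul_eq_mul, snd_neg, Prod.fst_neg,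
    Prod.snd_neg]
  have : z.snd.1 * w.snd.2 - z.snd.2 * w.snd.1 = 0 := by
    linear_combination (w.fst * z.snd.2) * h1 - (w.fst * z.snd.1) * h2 -
      (z.snd.1 * w.snd.2 - z.snd.2 * w.snd.1) * h0
  linear_combination (-trace ((m0 (pm K0 s.sw))⁻¹ * (single s.lo s.hi 1 *
    (m0 (pm K0 s.sw) * single s.lo s.hi 1)))) * this

theorem isUnit_dd (s : Sr n) {z w : K0} (h : w * z = 1) (a : Fin n) : IsUnit (dd s z w a) := by
  unfold dd
  split_ifs
  · exact IsUnit.of_mul_eq_one_right _ h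
  · exact (IsUnit.of_mul_eq_one _ h).neg
  · exact isUnit_one

theorem sj_sl2 (s : Sr n) {z w : K0} (h : w * z = 1) : sj (XS s z) = sj (pm K0 s.sw) *
    (sj (tv s w) * (sj (diagonal fun a => dd s z w (s.sw a)) * (sj (pm K0 s.sw) * sj (tv s w)))) := by
  have b := bo_diag fun a => isUnit_dd s h (s.sw a)
  have e := sj_mul (isUnit_XS s z) (uni_tv' s (-w)).isUnit
  rw [co_XS_tv s h, cz_zero, mul_one, sl2 s h,
    ← sj_mul_pm _ ((isUnit_pm _).mul ((uni_tv' s w).bo.mul b).isUnit),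
    ← sj_pm_mul _ ((uni_tv' s w).bo.mul b).isUnit, ← sj_uni_mul (uni_tv' s w) b] at e
  have e2 : sj (tv s (-w)) * sj (tv s w) = 1 := by
    rw [sj_mul_uni (uni_tv' s _).bo (uni_tv' s _), tv_mul, neg_add_cancel, tv_zero, sj_one]
  rw [← mul_one (sj (XS s z)), ← e2, ← mul_assoc, e]
  simp only [mul_assoc]

/-- The lift of a factorised element. -/
noncomputable def GG (U : MJ n) (p : Perm (Fin n)) (H : Fin n → K0) (U' : MJ n) : HG n :=
  sj U * (sj (pm K0 p) * (sj (diagonal H) * sj U'))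

theorem GG_up (s : Sr n) {U U' : MJ n} {p : Perm (Fin n)} {H : Fin n → K0} (hU : Uni U)
    (hU' : Uni U') (hH : ∀ a, IsUnit (H a)) {z r : K0} (hp : p s.lo < p s.hi ∨ r = 0)
    (h : r * H s.hi = H s.lo * (z + U' s.lo s.hi)) :
    GG U p H U' * sj (XS s z) = GG (U * transvection (p s.lo) (p s.hi) r) (p * s.sw)
      (fun a => H (s.sw a)) (vv s U' z) := by
  simp only [GG, mul_assoc]
  rw [sj_uni_XS s hU', sj_XS, mul_assoc, sj_diag_tv hH s h, sj_diag_pm hH]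
  rcases hp with hp | rfl
  · rw [sj_pm_tv p s r hp, sj_pm_pm, ← sj_mul_uni hU.bo (uni_tv hp r), mul_assoc]
  · rw [tv_zero, sj_one, one_mul, sj_pm_pm, transvection_zero, Matrix.mul_one]

theorem GG_stay (s : Sr n) {U U' : MJ n} {p : Perm (Fin n)} {H : Fin n → K0} (hU : Uni U)
    (hU' : Uni U') (hH : ∀ a, IsUnit (H a)) {z w r : K0} (hp : p s.hi < p s.lo)
    (hw : w * (z + U' s.lo s.hi) = 1) (h : r * H s.lo = H s.hi * w) :
    GG U p H U' * sj (XS s z) = GG (U * transvection (p s.hi) (p s.lo) r) p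
      (fun a => H a * dd s (z + U' s.lo s.hi) w a) (tv s w * vv s U' z) *
        cz (∑ a, wg (H (s.sw a)) (dd s (z + U' s.lo s.hi) w (s.sw a))) := by
  have hH' : ∀ a, IsUnit (H (s.sw a)) := fun a => hH _
  have b := fun a => isUnit_dd s hw (s.sw a)
  have hp' : (p * s.sw) s.lo < (p * s.sw) s.hi := by simpa using hp
  simp only [GG, mul_assoc]
  rw [sj_uni_XS s hU', sj_sl2 s hw]
  simp only [mul_assoc]
  rw [sj_diag_pm hH, sj_pm_pm, sj_diag_tv hH' s (r := r) (by simpa using h), sj_pm_tv _ s r hp',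
    ← mul_assoc (sj (diagonal _)), sj_bo (bo_diag hH') (bo_diag b), diagonal_mul_diagonal,
    ← cz_mul, mul_assoc, sj_diag_pm fun a => (hH' a).mul (b a), cz_left, sj_pm_pm,
    ← sj_mul_uni hU.bo (uni_tv hp r), ← sj_mul_uni (uni_tv' s w).bo (uni_vv s hU' z), cz_mul]
  simp only [mul_assoc, diagonal_apply_eq, Perm.mul_apply, Sr.sw_lo, Sr.sw_hi, Sr.sw_sw,
    Sr.sw_mul_sw, mul_one]

theorem GG_bo {U U' V B : MJ n} {p : Perm (Fin n)} {H b : Fin n → K0} (hU' : Uni U') (hV : Uni V)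
    (hH : ∀ a, IsUnit (H a)) (hB : Bo B) (hb : ∀ a, IsUnit (b a)) (e : U' * B = diagonal b * V) :
    GG U p H U' * sj B = GG U p (fun a => H a * b a) V * cz (∑ a, wg (H a) (b a)) := by
  simp only [GG, mul_assoc]
  rw [sj_uni_mul hU' hB, e, ← sj_mul_uni (bo_diag hb) hV, ← mul_assoc (sj (diagonal _)),
    sj_bo (bo_diag hH) (bo_diag hb), diagonal_mul_diagonal, mul_assoc, cz_mul]
  simp only [diagonal_apply_eq]

theorem GG_one_z {U U' : MJ n} {H : Fin n → K0} (hU : Uni U) (hU' : Uni U')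
    (hH : ∀ a, IsUnit (H a)) (c : ℂ) : (GG U 1 H U' * cz c).z = c := by
  rw [GG, pm_one, sj_one, one_mul, sj_mul_uni (bo_diag hH) hU',
    sj_uni_mul hU ((bo_diag hH).mul hU'.bo), mul_cz]
  simp [sj_def]

/-- The corrections of a pair of edges. -/
theorem pair {b0 b0' b1 b2 b3 v1 v3 c cw : MJ n} {w : Perm (Fin n)} (h0 : Bo b0') (h1 : Bo b1)
    (hc : Bo c) (hw : Bo cw) (u1 : Uni v1) (u3 : Uni v3) (e0 : v1 * b0' = b0) (e3 : c * b0' = b3)
    (e2 : v3 * (cw * b1) = b2) (e : pm K0 w * cw = c * pm K0 w) :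
    (sj b0)⁻¹ * (sj (v1 * pm K0 w) * sj b1) * ((sj b2)⁻¹ * (sj (v3 * pm K0 w⁻¹) * sj b3)) =
      cz (∑ a, wg (cw a a) (b1 a a) - ∑ a, wg (c a a) (b0' a a)) := by
  have k0 : sj b0 = sj v1 * sj b0' := by rw [sj_uni_mul u1 h0, e0]
  have k3 : sj b3 = sj c * sj b0' * cz (-∑ a, wg (c a a) (b0' a a)) := by
    rw [sj_bo hc h0, e3, mul_assoc, cz_add, add_neg_cancel, cz_zero, mul_one]
  have k2 : sj b2 = sj v3 * (sj cw * sj b1 * cz (-∑ a, wg (cw a a) (b1 a a))) := by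
    rw [sj_bo hw h1, mul_assoc, cz_add, add_neg_cancel, cz_zero, mul_one, sj_uni_mul u3 (hw.mul h1),
      e2]
  have k : sj c = sj (pm K0 w) * (sj cw * (sj (pm K0 w))⁻¹) := by
    rw [← mul_assoc, sj_pm_mul _ hw.isUnit, e, ← sj_mul_pm _ hc.isUnit, mul_inv_cancel_right]
  have ki : sj (pm K0 w⁻¹) = (sj (pm K0 w))⁻¹ := eq_inv_of_mul_eq_one_left (by
    rw [sj_pm_mul _ (isUnit_pm w), pm_mul_pm, inv_mul_cancel, pm_one, sj_one])
  rw [k0, k2, k3, ← sj_mul_pm _ u1.isUnit, ← sj_mul_pm _ u3.isUnit, ki, k, sub_eq_add_neg, ← cz_add]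
  simp only [_root_.mul_inv_rev, cz_inv, neg_neg, mul_assoc, inv_mul_cancel_left, cz_left _ _ (∑ a, _),
    mul_inv_cancel_left]

/-- The commutator does not depend on the lifts. -/
theorem comm_cz (x y : HG n) (c d : ℂ) :
    x * cz c * (y * cz d) * (x * cz c)⁻¹ * (y * cz d)⁻¹ = x * y * x⁻¹ * y⁻¹ := by
  have h : ∀ (e : ℂ) (a : HG n), cz e * a * (cz e)⁻¹ = a := fun e a => by
    rw [cz_mul, mul_inv_cancel_right]
  calc _ = x * (cz c * (y * cz d) * (cz c)⁻¹) * x⁻¹ * (cz d)⁻¹ * y⁻¹ := by group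
    _ = x * y * (cz d * x⁻¹ * (cz d)⁻¹) * y⁻¹ := by rw [h]; group
    _ = _ := by rw [h]

end P275BC
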