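import Vale.Agent.P275BC.Walk

/-! The parametrisation of one handle, at a point. -/

namespace P275BC

open Matrix Equiv HG

variable {n : ℕ} {κ κ' : Type}

/-- Complex matrices. -/
abbrev MC (n : ℕ) : Type := Matrix (Fin n) (Fin n) ℂ

section Lists
variable {K : Type} [CommRing K]

theorem XL_append (l l' : List (Sr n × κ)) (w : κ → K) : XL (l ++ l') w = XL l w * XL l' w := by
  simp [XL]

theorem XH_append (l l' : List (Sr n × κ)) (w : κ → K0) : XH (l ++ l') w = XH l w * XH l' w := by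
  simp [XH]

theorem pL_append (l l' : List (Sr n × κ)) : pL (l ++ l') = pL l * pL l' := by simp [pL]

/-- Change of the indices of a word. -/
def tg (f : κ → κ') (l : List (Sr n × κ)) : List (Sr n × κ') := l.map fun q => (q.1, f q.2)

theorem XL_tg (f : κ → κ') (l : List (Sr n × κ)) (w : κ' → K) :
    XL (tg f l) w = XL l fun k => w (f k) := by simp [XL, tg, Function.comp_def]

theorem XH_tg (f : κ → κ') (l : List (Sr n × κ)) (w : κ' → K0) :
    XH (tg f l) w = XH l fun k => w (f k) := by simp [XH, tg, Function.comp_def]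

theorem pL_tg (f : κ → κ') (l : List (Sr n × κ)) : pL (tg f l) = pL l := by
  simp [pL, tg, Function.comp_def]

theorem wtL_append [DecidableEq κ] (l l' : List (Sr n × κ)) (v : Perm (Fin n)) (k : κ) :
    wtL v (l ++ l') k = if k ∈ l.map Prod.snd then wtL v l k else wtL (v * pL l) l' k := by
  induction l generalizing v with
  | nil => simp
  | cons q l ih =>
    by_cases e : k = q.2
    · simp [wtL, e]
    · simp only [List.cons_append, wtL, Function.update_of_ne e, ih, List.map_cons, List.mem_cons, e,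
        false_or, pL_cons, mul_assoc]

theorem wtL_tg [DecidableEq κ] [DecidableEq κ'] {f : κ → κ'} (hf : Function.Injective f)
    (l : List (Sr n × κ)) (v : Perm (Fin n)) (k : κ) : wtL v (tg f l) (f k) = wtL v l k := by
  induction l generalizing v with
  | nil => rfl
  | cons q l ih =>
    by_cases e : k = q.2
    · simp [tg, wtL, e]
    · have := ih (v * q.1.sw)
      simp only [tg, List.map_cons, wtL, Function.update_of_ne e,
        Function.update_of_ne (hf.ne e)] at this ⊢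
      exact this

end Lists

theorem UT.ne {M : MC n} (h : UT M) (k : IsUnit M) (a : Fin n) : M a a ≠ 0 :=
  right_ne_zero_of_mul_eq_one (h.inv_diag k a)

theorem BW.unique {l : List (Sr n × κ)} (h : BW l) {w w' : κ → ℂ} {b b' : MC n} (hb : UT b)
    (hb' : UT b') (u : IsUnit b') (e : XL l w * b = XL l w' * b') :
    b = b' ∧ ∀ q ∈ l, w q.2 = w' q.2 := by
  have d := (isUnit_iff_isUnit_det _).1 u
  have := h.uniq w w' (b * b'⁻¹) (hb.mul (hb'.inv u)) (by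
    rw [← Matrix.mul_assoc, e, mul_nonsing_inv_cancel_right _ _ d])
  refine ⟨?_, this⟩
  rw [XL_congr this] at e
  exact (isUnit_XL l w').mul_left_cancel e

/-- The unipotent factor of a reduced word. -/
def vL {K : Type} [CommRing K] (l : List (Sr n × κ)) (w : κ → K) : Matrix (Fin n) (Fin n) K :=
  XL l w * pm K (pL l)⁻¹

theorem vL_pm {K : Type} [CommRing K] (l : List (Sr n × κ)) (w : κ → K) :
    vL l w * pm K (pL l) = XL l w := by
  rw [vL, Matrix.mul_assoc, pm_mul_pm, inv_mul_cancel, pm_one, Matrix.mul_one]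

/-- Conjugation by a permutation matrix. -/
def cj (p : Perm (Fin n)) (c : MC n) : MC n := pm ℂ p⁻¹ * c * pm ℂ p

theorem cj_apply (p : Perm (Fin n)) (c : MC n) (a b : Fin n) : cj p c a b = c (p a) (p b) := by
  rw [cj, mul_pm, pm_mul, inv_inv]

theorem pm_cj (p : Perm (Fin n)) (c : MC n) : pm ℂ p * cj p c = c * pm ℂ p := by
  rw [cj, ← Matrix.mul_assoc, ← Matrix.mul_assoc, pm_mul_pm, mul_inv_cancel, pm_one, Matrix.one_mul]

theorem pm_inv (p : Perm (Fin n)) : pm ℂ p⁻¹ = (pm ℂ p)⁻¹ :=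
  (inv_eq_left_inv (by rw [pm_mul_pm, inv_mul_cancel, pm_one])).symm

theorem isUnit_inv {M : MC n} (h : IsUnit M) : IsUnit M⁻¹ := isUnit_nonsing_inv_iff.2 h

theorem edge_rel {l l' : List (Sr n × κ)} (h : BW l) (h' : BW l') {w w' : κ → ℂ}
    {e b0 b1 b2 b3 : MC n} (ue : IsUnit e) (u0 : IsUnit b0) (u2 : IsUnit b2) (t0 : UT b0)
    (t1 : UT b1) (t2 : UT b2) (t3 : UT b3) (e1 : b0 * e = XL l w * b1)
    (e2 : b2 * e⁻¹ = XL l' w' * b3) :
    pL l' = (pL l)⁻¹ ∧ UT (b3 * b0⁻¹ * vL l w) ∧ IsUnit (b3 * b0⁻¹ * vL l w) ∧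
      UT (cj (pL l) (b3 * b0⁻¹ * vL l w)) ∧
      vL l' w' * (cj (pL l) (b3 * b0⁻¹ * vL l w) * b1) = b2 ∧
      b3 * b0⁻¹ * vL l w * ((vL l w)⁻¹ * b0) = b3 := by
  have u1 : IsUnit b1 := isUnit_of_mul_isUnit_right (e1 ▸ u0.mul ue)
  have u3 : IsUnit b3 := isUnit_of_mul_isUnit_right (e2 ▸ u2.mul (isUnit_inv ue))
  have v : Uni (vL l w) := h.uni w
  have v' : Uni (vL l' w') := h'.uni w'
  have tc := (t3.mul (t0.inv u0)).mul v.1
  have uc := (u3.mul (isUnit_inv u0)).mul v.isUnit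
  have tb := (v'.inv.1.mul t2).mul (t1.inv u1)
  rw [← vL_pm] at e1 e2
  have key : pm ℂ (pL l') * (b3 * b0⁻¹ * vL l w) * pm ℂ (pL l) = (vL l' w')⁻¹ * b2 * b1⁻¹ ∧
      b3 * b0⁻¹ * vL l w * ((vL l w)⁻¹ * b0) = b3 ∧
      vL l' w' * ((vL l' w')⁻¹ * b2 * b1⁻¹ * b1) = b2 := by
    obtain ⟨V, hV⟩ := v.isUnit
    obtain ⟨V', hV'⟩ := v'.isUnit
    obtain ⟨P, hP⟩ := isUnit_pm (K := ℂ) (pL l)
    obtain ⟨P', hP'⟩ := isUnit_pm (K := ℂ) (pL l')
    obtain ⟨e, rfl⟩ := ue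
    obtain ⟨b0, rfl⟩ := u0
    obtain ⟨b1, rfl⟩ := u1
    obtain ⟨b2, rfl⟩ := u2
    obtain ⟨b3, rfl⟩ := u3
    simp only [← hV, ← hV', ← hP, ← hP', ← Matrix.coe_units_inv, ← Units.val_mul, Units.val_inj]
      at e1 e2 ⊢
    obtain rfl : b2 = V' * P' * b3 * e := by rw [← e2]; group
    obtain rfl : b0 = V * P * b1 * e⁻¹ := by rw [← e1]; group
    refine ⟨by group, by group, by group⟩
  have hp : pL l' = (pL l)⁻¹ := eq_inv_of_mul_eq_one_left (pm_unique (tc.ne uc) tb key.1)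
  have kc : cj (pL l) (b3 * b0⁻¹ * vL l w) = (vL l' w')⁻¹ * b2 * b1⁻¹ := by rw [cj, ← hp, key.1]
  exact ⟨hp, tc, uc, kc ▸ tb, kc ▸ key.2.2, key.2.1⟩

variable (l : Fin 4 → List (Sr n × κ))

/-- The four Bruhat factorisations along the boundary of a handle. -/
def Fac (A B : MC n) (w : Fin 4 → κ → ℂ) (b : Fin 4 → MC n) : Prop :=
  (∀ i, UT (b i)) ∧ A = XL (l 0) (w 0) * b 0 ∧ b 0 * B = XL (l 1) (w 1) * b 1 ∧
    b 1 * A⁻¹ = XL (l 2) (w 2) * b 2 ∧ b 2 * B⁻¹ = XL (l 3) (w 3) * b 3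

/-- The gluing parameters. -/
noncomputable def cA (w : Fin 4 → κ → ℂ) (b : Fin 4 → MC n) : MC n := b 2 * vL (l 0) (w 0)
noncomputable def cB (w : Fin 4 → κ → ℂ) (b : Fin 4 → MC n) : MC n :=
  b 3 * (b 0)⁻¹ * vL (l 1) (w 1)

/-- The Borel factors in terms of the parameters. -/
noncomputable def b2 (w : Fin 4 → κ → ℂ) (c : MC n) : MC n := c * (vL (l 0) (w 0))⁻¹
noncomputable def b1 (w : Fin 4 → κ → ℂ) (c c' : MC n) : MC n :=
  (vL (l 3) (w 3) * cj (pL (l 1)) c')⁻¹ * b2 l w c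
noncomputable def b0 (w : Fin 4 → κ → ℂ) (c c' : MC n) : MC n :=
  (vL (l 2) (w 2) * cj (pL (l 0)) c)⁻¹ * b1 l w c c'
noncomputable def b3 (w : Fin 4 → κ → ℂ) (c c' : MC n) : MC n :=
  c' * ((vL (l 1) (w 1))⁻¹ * b0 l w c c')
noncomputable def aA (w : Fin 4 → κ → ℂ) (c c' : MC n) : MC n := XL (l 0) (w 0) * b0 l w c c'
noncomputable def aB (w : Fin 4 → κ → ℂ) (c c' : MC n) : MC n :=
  (b0 l w c c')⁻¹ * (XL (l 1) (w 1) * b1 l w c c')

variable {l} {A B : MC n} {w w' : Fin 4 → κ → ℂ} {b b' : Fin 4 → MC n}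

theorem Fac.unit (h : Fac l A B w b) (hA : IsUnit A) (hB : IsUnit B) (i : Fin 4) : IsUnit (b i) := by
  obtain ⟨_, e0, e1, e2, e3⟩ := h
  have u0 : IsUnit (b 0) := isUnit_of_mul_isUnit_right (e0 ▸ hA)
  have u1 : IsUnit (b 1) := isUnit_of_mul_isUnit_right (e1 ▸ u0.mul hB)
  have u2 : IsUnit (b 2) := isUnit_of_mul_isUnit_right (e2 ▸ u1.mul (isUnit_inv hA))
  have u3 : IsUnit (b 3) := isUnit_of_mul_isUnit_right (e3 ▸ u2.mul (isUnit_inv hB))
  fin_cases i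
  exacts [u0, u1, u2, u3]

theorem Fac.unique (hl : ∀ i, BW (l i)) (h : Fac l A B w b) (h' : Fac l A B w' b') (hA : IsUnit A)
    (hB : IsUnit B) (i : Fin 4) : b i = b' i ∧ ∀ q ∈ l i, w i q.2 = w' i q.2 := by
  have u := h'.unit hA hB
  obtain ⟨t, e0, e1, e2, e3⟩ := h
  obtain ⟨t', f0, f1, f2, f3⟩ := h'
  have a0 := (hl 0).unique (t 0) (t' 0) (u 0) (e0.symm.trans f0)
  have a1 := (hl 1).unique (t 1) (t' 1) (u 1) (by rw [← e1, ← f1, a0.1])
  have a2 := (hl 2).unique (t 2) (t' 2) (u 2) (by rw [← e2, ← f2, a1.1])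
  have a3 := (hl 3).unique (t 3) (t' 3) (u 3) (by rw [← e3, ← f3, a2.1])
  fin_cases i
  exacts [a0, a1, a2, a3]

theorem Fac.congr (h : Fac l A B w b) (e : ∀ i, ∀ q ∈ l i, w' i q.2 = w i q.2) :
    Fac l A B w' b := by
  simpa only [Fac, fun i => XL_congr (e i)] using h

/-- The relations between the factors. -/
structure Rel (l : Fin 4 → List (Sr n × κ)) (w : Fin 4 → κ → ℂ) (b : Fin 4 → MC n) (c c' : MC n) :
    Prop where
  p2 : pL (l 2) = (pL (l 0))⁻¹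
  p3 : pL (l 3) = (pL (l 1))⁻¹
  t : UT c
  u : IsUnit c
  tj : UT (cj (pL (l 0)) c)
  t' : UT c'
  u' : IsUnit c'
  tj' : UT (cj (pL (l 1)) c')
  e1 : vL (l 2) (w 2) * (cj (pL (l 0)) c * b 0) = b 1
  e2 : c * (vL (l 0) (w 0))⁻¹ = b 2
  e2' : vL (l 3) (w 3) * (cj (pL (l 1)) c' * b 1) = b 2
  e3 : c' * ((vL (l 1) (w 1))⁻¹ * b 0) = b 3

theorem Fac.rel (hl : ∀ i, BW (l i)) (h : Fac l A B w b) (hA : IsUnit A) (hB : IsUnit B) :
    Rel l w b (cA l w b) (cB l w b) := by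
  have u := h.unit hA hB
  obtain ⟨t, e0, e1, e2, e3⟩ := h
  obtain ⟨a1, a2, a3, a4, a5, a6⟩ := edge_rel (hl 0) (hl 2) hA isUnit_one (u 1) uni_one.1 (t 0) (t 1)
    (t 2) (by rw [Matrix.one_mul, e0]) e2
  obtain ⟨c1, c2, c3, c4, c5, c6⟩ := edge_rel (hl 1) (hl 3) hB (u 0) (u 2) (t 0) (t 1) (t 2) (t 3) e1 e3
  simp only [_root_.inv_one, Matrix.mul_one] at a2 a3 a4 a5 a6
  exact ⟨a1, c1, a2, a3, a4, c2, c3, c4, a5, a6, c5, c6⟩

theorem isUnit_cj (p : Perm (Fin n)) {c : MC n} (h : IsUnit c) : IsUnit (cj p c) :=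
  ((isUnit_pm _).mul h).mul (isUnit_pm _)

theorem Rel.back (hl : ∀ i, BW (l i)) {c c' : MC n} (h : Rel l w b c c') :
    b0 l w c c' = b 0 ∧ b1 l w c c' = b 1 := by
  have d2 := (isUnit_iff_isUnit_det _).1 (((hl 2).uni (w 2)).isUnit.mul (isUnit_cj (pL (l 0)) h.u))
  have d3 := (isUnit_iff_isUnit_det _).1 (((hl 3).uni (w 3)).isUnit.mul (isUnit_cj (pL (l 1)) h.u'))
  have e1 : b1 l w c c' = b 1 := by
    rw [b1, b2, h.e2, ← h.e2', ← Matrix.mul_assoc (vL _ _)]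
    exact nonsing_inv_mul_cancel_left _ _ d3
  refine ⟨?_, e1⟩
  rw [b0, e1, ← h.e1, ← Matrix.mul_assoc (vL _ _)]
  exact nonsing_inv_mul_cancel_left _ _ d2

theorem Fac.back (hl : ∀ i, BW (l i)) (h : Fac l A B w b) (hA : IsUnit A) (hB : IsUnit B) :
    aA l w (cA l w b) (cB l w b) = A ∧ aB l w (cA l w b) (cB l w b) = B := by
  obtain ⟨e0, e1⟩ := (h.rel hl hA hB).back hl
  rw [aA, aB, e0, e1, ← h.2.1, ← h.2.2.1]
  exact ⟨rfl, nonsing_inv_mul_cancel_left _ _ ((isUnit_iff_isUnit_det _).1 (h.unit hA hB 0))⟩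

theorem fac_mk (hl : ∀ i, BW (l i)) (p2 : pL (l 2) = (pL (l 0))⁻¹) (p3 : pL (l 3) = (pL (l 1))⁻¹)
    (w : Fin 4 → κ → ℂ) {c c' : MC n} (t : UT c) (u : IsUnit c) (tj : UT (cj (pL (l 0)) c))
    (t' : UT c') (u' : IsUnit c') (tj' : UT (cj (pL (l 1)) c')) :
    (IsUnit (vL (l 3) (w 3) * cj (pL (l 1)) c') ∧ IsUnit (vL (l 2) (w 2) * cj (pL (l 0)) c) ∧
      IsUnit (b0 l w c c')) ∧ IsUnit (aA l w c c') ∧ IsUnit (aB l w c c') ∧ ∃ b,
      Fac l (aA l w c c') (aB l w c c') w b ∧ cA l w b = c ∧ cB l w b = c' := by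
  have v : ∀ i, Uni (vL (l i) (w i)) := fun i => (hl i).uni (w i)
  have k2 := (v 2).isUnit.mul (isUnit_cj (pL (l 0)) u)
  have k3 := (v 3).isUnit.mul (isUnit_cj (pL (l 1)) u')
  have u2 : IsUnit (b2 l w c) := u.mul (v 0).inv.isUnit
  have u1 : IsUnit (b1 l w c c') := (isUnit_inv k3).mul u2
  have u0 : IsUnit (b0 l w c c') := (isUnit_inv k2).mul u1
  have t2 : UT (b2 l w c) := t.mul (v 0).inv.1
  have t1 : UT (b1 l w c c') := (((v 3).1.mul tj').inv k3).mul t2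
  have t0 : UT (b0 l w c c') := (((v 2).1.mul tj).inv k2).mul t1
  refine ⟨⟨k3, k2, u0⟩, (isUnit_XL _ _).mul u0, (isUnit_inv u0).mul ((isUnit_XL _ _).mul u1),
    ![b0 l w c c', b1 l w c c', b2 l w c, b3 l w c c'], ?_⟩
  rw [Fac, and_assoc]
  refine ⟨fun i => ?_, ?_⟩
  · fin_cases i
    exacts [t0, t1, t2, t'.mul ((v 1).inv.1.mul t0)]
  obtain ⟨V0, h0⟩ := (v 0).isUnit
  obtain ⟨V1, h1⟩ := (v 1).isUnit
  obtain ⟨V2, h2⟩ := (v 2).isUnit
  obtain ⟨V3, h3⟩ := (v 3).isUnit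
  obtain ⟨P, hP⟩ := isUnit_pm (K := ℂ) (pL (l 0))
  obtain ⟨P', hP'⟩ := isUnit_pm (K := ℂ) (pL (l 1))
  obtain ⟨c, rfl⟩ := u
  obtain ⟨c', rfl⟩ := u'
  simp only [cA, cB, aA, aB, b0, b1, b2, b3, cj, ← vL_pm, p2, p3, pm_inv, cons_val_zero, cons_val_one,
    cons_val, ← h0, ← h1, ← h2, ← h3, ← hP, ← hP', ← Matrix.coe_units_inv, ← Units.val_mul,
    Units.val_inj]
  refine ⟨⟨trivial, by group, by group, by group⟩, by group, by group⟩

/-- Intertwining by diagonal matrices. -/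
def Iw (t : Fin n → ℂˣ) (M M' : MC n) (t' : Fin n → ℂˣ) : Prop :=
  diagonal (fun a => (t a : ℂ)) * M = M' * diagonal fun a => (t' a : ℂ)

section Iw
variable {t t' t'' : Fin n → ℂˣ} {M M' N N' : MC n}

theorem Iw.mul (h : Iw t M M' t') (k : Iw t' N N' t'') : Iw t (M * N) (M' * N') t'' := by
  unfold Iw at *
  rw [← Matrix.mul_assoc, h, Matrix.mul_assoc, k, Matrix.mul_assoc]

theorem iw_iff : Iw t M M' t' ↔ ∀ a c, M' a c = t a * (t' c : ℂ)⁻¹ * M a c := by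
  simp only [Iw, ← Matrix.ext_iff, diagonal_mul, mul_diagonal]
  refine forall₂_congr fun a c => ⟨fun h => ?_, fun h => ?_⟩
  · rw [mul_right_comm, h]; simp
  · rw [h]; field_simp

theorem Iw.uniq (h : Iw t M M' t') (k : Iw t M N' t') : M' = N' := by
  ext a c; rw [iw_iff.1 h, iw_iff.1 k]

theorem isUnit_dg (t : Fin n → ℂˣ) : IsUnit (diagonal fun a => (t a : ℂ)) :=
  (ut_diag _).isUnit fun a => by simp

theorem Iw.unit (h : Iw t M M' t') (u : IsUnit M) : IsUnit M' :=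
  isUnit_of_mul_isUnit_left (h ▸ (isUnit_dg t).mul u)

theorem Iw.inv (h : Iw t M M' t') (u : IsUnit M) : Iw t' M⁻¹ M'⁻¹ t := by
  obtain ⟨M', rfl⟩ := h.unit u
  obtain ⟨M, rfl⟩ := u
  obtain ⟨D, hD⟩ := isUnit_dg t
  obtain ⟨D', hD'⟩ := isUnit_dg t'
  simp only [Iw, ← hD, ← hD', ← Matrix.coe_units_inv, ← Units.val_mul, Units.val_inj] at h ⊢
  obtain rfl : D = M' * D' * M⁻¹ := by rw [← h]; group
  group

theorem iw_pm (t : Fin n → ℂˣ) (p : Perm (Fin n)) : Iw (fun a => t (p a)) (pm ℂ p⁻¹) (pm ℂ p⁻¹) t := by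
  simp only [Iw, diag_pm, pinv']

theorem iw_ex (t t' : Fin n → ℂˣ) (M : MC n) : ∃ M', Iw t M M' t' ∧ (UT M → UT M') :=
  ⟨of fun a c => t a * (t' c : ℂ)⁻¹ * M a c, iw_iff.2 fun _ _ => rfl, fun h a c e => by
    simp [h a c e]⟩

end Iw

/-- The permutation before the edge `i`. -/
def vp (l : Fin 4 → List (Sr n × κ)) : Fin 4 → Perm (Fin n) :=
  ![1, pL (l 0), pL (l 0) * pL (l 1), pL (l 0) * pL (l 1) * pL (l 2)]

theorem Fac.tw [DecidableEq κ] (hl : ∀ i, BW (l i)) (h : Fac l A B w b) (hA : IsUnit A)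
    (hB : IsUnit B) {τ : Fin n → ℂˣ} {A' B' : MC n} (iA : Iw τ A A' τ) (iB : Iw τ B B' τ) :
    ∃ b', Fac l A' B' (fun i k => chr (wtL (vp l i) (l i) k) τ * w i k) b' ∧
      Iw (fun a => τ ((vp l 3 * pL (l 3)) a)) (b 3) (b' 3) τ ∧
      Iw (fun a => τ (vp l 3 a)) (cA l w b)
        (cA l (fun i k => chr (wtL (vp l i) (l i) k) τ * w i k) b') τ ∧
      Iw (fun a => τ ((vp l 3 * pL (l 3)) a)) (cB l w b)
        (cB l (fun i k => chr (wtL (vp l i) (l i) k) τ * w i k) b') fun a => τ (vp l 1 a) := by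
  have u := h.unit hA hB
  obtain ⟨t, e0, e1, e2, e3⟩ := h
  choose b' hb tb using fun i => iw_ex (fun a => τ ((vp l i * pL (l i)) a)) τ (b i)
  have x : ∀ i, Iw (fun a => τ (vp l i a)) (XL (l i) (w i))
      (XL (l i) fun k => chr (wtL (vp l i) (l i) k) τ * w i k) fun a => τ ((vp l i * pL (l i)) a) :=
    fun i => twist τ (w i) (l i) (hl i).nd (vp l i)
  have y := fun i => (x i).mul (hb i)
  have z := fun i => (x i).mul (iw_pm (fun a => τ (vp l i a)) (pL (l i)))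
  have h0 : Iw (fun a => τ (vp l 1 a)) (b 0) (b' 0) τ := by simpa [vp] using hb 0
  refine ⟨b', ⟨fun i => tb i (t i), iA.uniq (e0 ▸ y 0), (h0.mul iB).uniq (e1 ▸ y 1),
    ((hb 1).mul (iA.inv hA)).uniq (e2 ▸ y 2), ((hb 2).mul (iB.inv hB)).uniq (e3 ▸ y 3)⟩, hb 3,
    (hb 2).mul (z 0), ((hb 3).mul (h0.inv (u 0))).mul (z 1)⟩

end P275BC
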