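import Vale.Agent.P275BC.Basic

/-! Jets of regular functions, monomials and logarithmic forms. -/

namespace P275BC

open MvPolynomial Matrix Filter Topology TrivSqZeroExt

variable {ι : Type} {S S' : Set (ι → ℂ)} {f g : (ι → ℂ) → ℂ} {j : ((ι → ℂ) → ℂ) → K0}

@[simp] theorem jt_fst (x u v : ℂ) : (jt x u v).fst = x := rfl
@[simp] theorem jt_snd1 (x u v : ℂ) : (jt x u v).snd.1 = u := rfl
@[simp] theorem jt_snd2 (x u v : ℂ) : (jt x u v).snd.2 = v := rfl

theorem K0.ext {a b : K0} (h0 : a.fst = b.fst) (h1 : a.snd.1 = b.snd.1) (h2 : a.snd.2 = b.snd.2) :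
    a = b := TrivSqZeroExt.ext h0 (Prod.ext h1 h2)

theorem snd1_mul (a b : K0) : (a * b).snd.1 = a.fst * b.snd.1 + b.fst * a.snd.1 := by
  simp [snd_mul]

theorem snd2_mul (a b : K0) : (a * b).snd.2 = a.fst * b.snd.2 + b.fst * a.snd.2 := by
  simp [snd_mul]

theorem jt_zero : jt 0 0 0 = 0 := rfl
theorem jt_one : jt 1 0 0 = 1 := rfl

theorem K0.isUnit {a : K0} (h : a.fst ≠ 0) : IsUnit a :=
  isUnit_iff_isUnit_fst.2 (IsUnit.mk0 _ h)

theorem K0.fst_ne {a : K0} (h : IsUnit a) : a.fst ≠ 0 := (isUnit_iff_isUnit_fst.1 h).ne_zero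

theorem lg_mul {a b : K0} (ha : a.fst ≠ 0) (hb : b.fst ≠ 0) : lg (a * b) = lg a + lg b := by
  ext
  · simp only [lg, snd1_mul, fst_mul, Prod.fst_add]; field_simp; ring
  · simp only [lg, snd2_mul, fst_mul, Prod.snd_add]; field_simp; ring

theorem lg_cst (c : ℂ) : lg (jt c 0 0) = 0 := by simp [lg]

theorem lg_one : lg 1 = 0 := lg_cst 1

theorem lg_neg (a : K0) : lg (-a) = lg a := by simp [lg]

theorem lg_inv {a b : K0} (h : a * b = 1) : lg b = -lg a := by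
  have h0 : a.fst * b.fst = 1 := by rw [← fst_mul, h, fst_one]
  have := lg_mul (left_ne_zero_of_mul_eq_one h0) (right_ne_zero_of_mul_eq_one h0)
  rw [h, lg_one] at this
  exact eq_neg_of_add_eq_zero_right this.symm

namespace Ctx

theorem mono (h : Ctx S' j) (hs : S' ⊆ S) : Ctx S j :=
  ⟨h.cst, fun f g a b => h.add f g (a.mono hs) (b.mono hs),
    fun f g a b => h.mul f g (a.mono hs) (b.mono hs),
    fun f g e => h.cgr f g fun x hx => e x (hs hx), let ⟨x, hx, e⟩ := h.pt; ⟨x, hs hx, e⟩⟩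

theorem zero (h : Ctx S j) : j (fun _ => 0) = 0 := h.cst 0
theorem one (h : Ctx S j) : j (fun _ => 1) = 1 := h.cst 1

theorem of_cst (h : Ctx S j) {c : ℂ} (e : ∀ x ∈ S, f x = c) : j f = jt c 0 0 :=
  (h.cgr f (fun _ => c) e).trans (h.cst c)

theorem neg (h : Ctx S j) (hf : Reg S f) : j (fun x => -f x) = -j f := by
  have := h.add f (fun x => -f x) hf hf.neg
  rw [h.of_cst (c := 0) fun x _ => add_neg_cancel _, jt_zero] at this
  exact eq_neg_of_add_eq_zero_right this.symm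

theorem sum (h : Ctx S j) {J : Type*} (s : Finset J) {F : J → (ι → ℂ) → ℂ}
    (hF : ∀ i ∈ s, Reg S (F i)) : j (fun x => ∑ i ∈ s, F i x) = ∑ i ∈ s, j (F i) := by
  classical
  induction s using Finset.induction_on with
  | empty => simpa using h.zero
  | insert a s ha ih =>
    rw [Finset.sum_insert ha, ← ih fun i hi => hF i (by simp [hi]), ← h.add _ _ (hF a (by simp))
      (Reg.sum s fun i hi => hF i (by simp [hi]))]
    exact h.cgr _ _ fun x _ => Finset.sum_insert ha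

theorem fst_ne (h : Ctx S j) (h0 : ∀ x ∈ S, f x ≠ 0) : (j f).fst ≠ 0 := by
  obtain ⟨x, hx, e⟩ := h.pt
  rw [e]; exact h0 x hx

theorem inv (h : Ctx S j) (hf : Reg S f) (h0 : ∀ x ∈ S, f x ≠ 0) :
    j f * j (fun x => (f x)⁻¹) = 1 := by
  rw [← h.mul _ _ hf (hf.inv h0)]
  exact h.of_cst fun x hx => mul_inv_cancel₀ (h0 x hx)

theorem lg_mul (h : Ctx S j) (hf : Reg S f) (hg : Reg S g) (f0 : ∀ x ∈ S, f x ≠ 0)
    (g0 : ∀ x ∈ S, g x ≠ 0) : lg (j fun x => f x * g x) = lg (j f) + lg (j g) := by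
  rw [h.mul _ _ hf hg, P275BC.lg_mul (h.fst_ne f0) (h.fst_ne g0)]

theorem lg_pow (h : Ctx S j) (hf : Reg S f) (f0 : ∀ x ∈ S, f x ≠ 0) (k : ℕ) :
    lg (j fun x => f x ^ k) = (k : ℂ) • lg (j f) := by
  induction k with
  | zero => simp [h.one, lg_one]
  | succ k ih =>
    rw [h.cgr _ (fun x => f x ^ k * f x) fun x _ => pow_succ _ _,
      h.lg_mul (hf.pow k) hf (fun x hx => pow_ne_zero _ (f0 x hx)) f0, ih]
    simp [add_smul]

theorem lg_zpow (h : Ctx S j) (hf : Reg S f) (f0 : ∀ x ∈ S, f x ≠ 0) (k : ℤ) :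
    lg (j fun x => f x ^ k) = (k : ℂ) • lg (j f) := by
  cases k with
  | ofNat k => simpa using h.lg_pow hf f0 k
  | negSucc k =>
    rw [h.cgr _ (fun x => (f x ^ (k + 1))⁻¹) fun x _ => zpow_negSucc _ _,
      lg_inv (h.inv (hf.pow (k + 1)) fun x hx => pow_ne_zero _ (f0 x hx)), h.lg_pow hf f0,
      Int.cast_negSucc, neg_smul]

theorem lg_prod (h : Ctx S j) {J : Type*} (s : Finset J) {F : J → (ι → ℂ) → ℂ}
    (hF : ∀ i ∈ s, Reg S (F i)) (h0 : ∀ i ∈ s, ∀ x ∈ S, F i x ≠ 0) :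
    lg (j fun x => ∏ i ∈ s, F i x) = ∑ i ∈ s, lg (j (F i)) := by
  classical
  induction s using Finset.induction_on with
  | empty => simp [h.one, lg_one]
  | insert a s ha ih =>
    rw [Finset.sum_insert ha, ← ih (fun i hi => hF i (by simp [hi])) fun i hi => h0 i (by simp [hi]),
      ← h.lg_mul (hF a (by simp)) (Reg.prod s fun i hi => hF i (by simp [hi])) (h0 a (by simp))
        fun x hx => Finset.prod_ne_zero_iff.2 fun i hi => h0 i (by simp [hi]) x hx]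
    exact congrArg lg (h.cgr _ _ fun x _ => Finset.prod_insert ha)

end Ctx

/-- The jet map of a holomorphic germ with values in `S`. -/
theorem ctx_of {E : Type*} [NormedAddCommGroup E] [NormedSpace ℂ E] {F : E → ι → ℂ} {w : E}
    (hF : ∀ i, DifferentiableAt ℂ (fun v => F v i) w) (hm : ∀ᶠ v in 𝓝 w, F v ∈ S) (u v : E) :
    Ctx S fun f => jt (f (F w)) (fderiv ℂ (fun y => f (F y)) w u)
      (fderiv ℂ (fun y => f (F y)) w v) where
  cst c := by simp
  add f g hf hg := by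
    rw [fderiv_fun_add (hf.differentiableAt hF hm) (hg.differentiableAt hF hm)]; rfl
  mul f g hf hg := by
    rw [fderiv_fun_mul (hf.differentiableAt hF hm) (hg.differentiableAt hF hm)]
    refine K0.ext rfl ?_ ?_
    · simp
    · simp
  cgr f g e := by
    have : (fun y => f (F y)) =ᶠ[𝓝 w] fun y => g (F y) := hm.mono fun y hy => e _ hy
    rw [this.fderiv_eq, e _ hm.self_of_nhds]
  pt := ⟨F w, hm.self_of_nhds, fun _ => rfl⟩

/-- The jet map of a point. -/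
theorem ctx_pt {x : ι → ℂ} (hx : x ∈ S) : Ctx S fun f => jt (f x) 0 0 where
  cst _ := rfl
  add f g _ _ := K0.ext rfl (by simp) (by simp)
  mul f g _ _ := K0.ext rfl (by simp) (by simp)
  cgr f g e := by rw [e x hx]
  pt := ⟨x, hx, fun _ => rfl⟩

namespace Cell
variable {α β α' β' : Type} [Fintype α] [Fintype α'] {c : Cell S α β}

theorem Mon.reg (h : c.Mon f) : Reg S f :=
  let ⟨c0, e, _, h⟩ := h
  ((Reg.const c0).mul (Reg.prod Finset.univ fun i _ =>
    (c.rψ (Sum.inl i)).zpow (fun x hx => c.mψ x hx i) (e i))).congr h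

theorem Mon.ne (h : c.Mon f) {x : ι → ℂ} (hx : x ∈ S) : f x ≠ 0 := by
  obtain ⟨c0, e, h0, h⟩ := h
  rw [h x hx]
  exact mul_ne_zero h0 (Finset.prod_ne_zero_iff.2 fun i _ => zpow_ne_zero _ (c.mψ x hx i))

theorem Mon.congr (h : c.Mon f) (e : ∀ x ∈ S, g x = f x) : c.Mon g :=
  let ⟨c0, e', h0, h⟩ := h
  ⟨c0, e', h0, fun x hx => (e x hx).trans (h x hx)⟩

theorem Mon.const {c0 : ℂ} (h : c0 ≠ 0) : c.Mon fun _ => c0 := ⟨c0, 0, h, by simp⟩

theorem Mon.mul (hf : c.Mon f) (hg : c.Mon g) : c.Mon fun x => f x * g x := by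
  obtain ⟨c0, e, h0, h⟩ := hf
  obtain ⟨c1, e', h1, h'⟩ := hg
  refine ⟨c0 * c1, e + e', mul_ne_zero h0 h1, fun x hx => ?_⟩
  simp only [h x hx, h' x hx, Pi.add_apply, zpow_add₀ (c.mψ x hx _), Finset.prod_mul_distrib]
  ring

theorem Mon.zpow (hf : c.Mon f) (k : ℤ) : c.Mon fun x => f x ^ k := by
  obtain ⟨c0, e, h0, h⟩ := hf
  refine ⟨c0 ^ k, fun i => e i * k, zpow_ne_zero _ h0, fun x hx => ?_⟩
  simp only [h x hx, mul_zpow, _root_.zpow_mul, Finset.prod_zpow]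

theorem Mon.inv (hf : c.Mon f) : c.Mon fun x => (f x)⁻¹ := (hf.zpow (-1)).congr (by simp)

theorem Mon.prod {J : Type*} (s : Finset J) {F : J → (ι → ℂ) → ℂ} (h : ∀ i ∈ s, c.Mon (F i)) :
    c.Mon fun x => ∏ i ∈ s, F i x := by
  classical
  induction s using Finset.induction_on with
  | empty => exact (Mon.const one_ne_zero).congr (by simp)
  | insert a s ha ih =>
    exact ((h a (by simp)).mul (ih fun j hj => h j (by simp [hj]))).congr
      fun x _ => Finset.prod_insert ha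

theorem Mon.coord (i : α) : c.Mon fun x => c.ψ x (Sum.inl i) := by
  classical
  refine ⟨1, Pi.single i 1, one_ne_zero, fun x _ => ?_⟩
  rw [one_mul, Finset.prod_eq_single i] <;> simp +contextual

theorem Mon.trans {c2 : Cell S' α' β'} (hf : c.Mon f) (hs : S' ⊆ S)
    (h : ∀ i, c2.Mon fun x => c.ψ x (Sum.inl i)) : c2.Mon f :=
  let ⟨_, e, h0, h1⟩ := hf
  ((Mon.const h0).mul (Mon.prod Finset.univ fun i _ => (h i).zpow (e i))).congr
    fun x hx => h1 x (hs hx)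

theorem Mon.lg (hf : c.Mon f) : ∃ e : α → ℂ, ∀ j, Ctx S j →
    lg (j f) = ∑ i, e i • lg (j fun x => c.ψ x (Sum.inl i)) := by
  obtain ⟨c0, e, h0, h⟩ := hf
  refine ⟨fun i => e i, fun j hj => ?_⟩
  have r := fun i => (c.rψ (Sum.inl i)).zpow (fun x hx => c.mψ x hx i) (e i)
  have n0 : ∀ i ∈ Finset.univ, ∀ x ∈ S, c.ψ x (Sum.inl i) ^ e i ≠ 0 :=
    fun i _ x hx => zpow_ne_zero _ (c.mψ x hx i)
  rw [hj.cgr _ _ h, hj.lg_mul (Reg.const c0) (Reg.prod _ fun i _ => r i) (fun _ _ => h0)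
    (fun x hx => Finset.prod_ne_zero_iff.2 fun i hi => n0 i hi x hx), hj.cst, lg_cst, zero_add,
    hj.lg_prod _ (fun i _ => r i) n0]
  exact Finset.sum_congr rfl fun i _ => hj.lg_zpow (c.rψ _) (fun x hx => c.mψ x hx i) _

theorem LogC.of_mon {c2 : Cell S' α' β'} {w : (((ι → ℂ) → ℂ) → K0) → ℂ} {Ω : Matrix α α ℂ}
    (hw : c.LogC w Ω) (hs : S' ⊆ S) (h : ∀ i, c2.Mon fun x => c.ψ x (Sum.inl i)) :
    ∃ Ω2, c2.LogC w Ω2 := by
  choose e he using fun i => (h i).lg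
  refine ⟨fun a b => ∑ i, ∑ k, Ω i k * (e i a * e k b), fun j hj => ?_⟩
  rw [hw j (hj.mono hs)]
  simp only [he _ j hj, Prod.fst_sum, Prod.snd_sum, Prod.smul_fst, Prod.smul_snd, smul_eq_mul,
    Finset.sum_mul, Finset.mul_sum]
  have key : ∀ T : α → α → α' → α' → ℂ, ∑ i, ∑ k, ∑ b, ∑ a, T i k a b =
      ∑ a, ∑ b, ∑ i, ∑ k, T i k a b := fun T => by
    simp only [← Finset.sum_product']
    exact Finset.sum_equiv ⟨fun p => (p.2.2.2, p.2.2.1, p.1, p.2.1),
      fun p => (p.2.2.1, p.2.2.2, p.2.1, p.1), fun _ => rfl, fun _ => rfl⟩ (by simp) (by simp)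
  rw [key]
  refine Finset.sum_congr rfl fun a _ => Finset.sum_congr rfl fun b _ =>
    Finset.sum_congr rfl fun i _ => Finset.sum_congr rfl fun k _ => by ring

end Cell

end P275BC
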