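import Vale.Agent.P275BC.Cells
import Vale.Agent.P275TQ.Bru
import Vale.Agent.P275TQ.Bc
import Vale.Agent.P275OM.Nd

/-! The cell decomposition of the quotient of `Rt` by the adjoint torus. -/

namespace P275BC

theorem cells' : CELLS := cells P275TQ.bru

theorem bcell : BCELL := P275TQ.bcell cells' Vale.Agent.P275OM.nd

end P275BC
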