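import Vale.Agent.P275BC.Jet

/-! Matrix identities for the steps of the walk, over a commutative ring. -/

namespace P275BC

open Matrix Equiv

/-- A simple reflection. -/
structure Sr (n : ℕ) where
  lo : Fin n
  hi : Fin n
  adj : lo.1 + 1 = hi.1

variable {n : ℕ} {K : Type} [CommRing K]

namespace Sr
variable (s : Sr n)

theorem lt : s.lo < s.hi := by have := s.adj; exact Fin.lt_def.2 (by omega)
theorem ne : s.lo ≠ s.hi := s.lt.ne

/-- The transposition. -/
def sw : Perm (Fin n) := swap s.lo s.hi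

@[simp] theorem sw_lo : s.sw s.lo = s.hi := swap_apply_left _ _
@[simp] theorem sw_hi : s.sw s.hi = s.lo := swap_apply_right _ _
theorem sw_ne {a : Fin n} (h1 : a ≠ s.lo) (h2 : a ≠ s.hi) : s.sw a = a := swap_apply_of_ne_of_ne h1 h2
@[simp] theorem sw_sw (a : Fin n) : s.sw (s.sw a) = a := swap_apply_self _ _ _
@[simp] theorem sw_mul_sw : s.sw * s.sw = 1 := swap_mul_self _ _
@[simp] theorem sw_inv : s.sw⁻¹ = s.sw := swap_inv _ _

theorem sw_lt {a b : Fin n} (h : a < b) (h2 : ¬(a = s.lo ∧ b = s.hi)) : s.sw a < s.sw b := by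
  have := s.adj
  simp only [sw, swap_apply_def, Fin.ext_iff, Fin.lt_def] at *
  split_ifs <;> omega

end Sr

theorem pinv (p : Perm (Fin n)) (a : Fin n) : p⁻¹ (p a) = a := p.symm_apply_apply a
theorem pinv' (p : Perm (Fin n)) (a : Fin n) : p (p⁻¹ a) = a := p.apply_symm_apply a

/-- Permutation matrices. -/
def pm (K : Type) [CommRing K] (p : Perm (Fin n)) : Matrix (Fin n) (Fin n) K :=
  of fun a b => if a = p b then 1 else 0

theorem mul_pm (M : Matrix (Fin n) (Fin n) K) (p : Perm (Fin n)) (a b : Fin n) :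
    (M * pm K p) a b = M a (p b) := by simp [pm, mul_apply]

theorem pm_mul (M : Matrix (Fin n) (Fin n) K) (p : Perm (Fin n)) (a b : Fin n) :
    (pm K p * M) a b = M (p⁻¹ a) b := by
  simp only [pm, mul_apply, of_apply, ite_mul, one_mul, zero_mul]
  rw [Finset.sum_eq_single (p⁻¹ a)]
  · simp
  · intro c _ hc
    exact if_neg fun e => hc (by rw [e, pinv])
  · simp

theorem pm_mul_pm (p q : Perm (Fin n)) : pm K p * pm K q = pm K (p * q) := by
  ext a b; rw [mul_pm]; rfl

theorem pm_one : pm K (1 : Perm (Fin n)) = 1 := by ext a b; rfl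

theorem isUnit_pm (p : Perm (Fin n)) : IsUnit (pm K p) :=
  ⟨⟨pm K p, pm K p⁻¹, by rw [pm_mul_pm, mul_inv_cancel, pm_one],
    by rw [pm_mul_pm, inv_mul_cancel, pm_one]⟩, rfl⟩

theorem diag_pm (H : Fin n → K) (p : Perm (Fin n)) :
    diagonal H * pm K p = pm K p * diagonal fun a => H (p a) := by
  ext a b
  rw [diagonal_mul, mul_diagonal]
  simp only [pm, of_apply]
  split_ifs with h <;> simp [h]

theorem pm_tv (p : Perm (Fin n)) (a b : Fin n) (r : K) :
    pm K p * transvection a b r = transvection (p a) (p b) r * pm K p := by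
  ext c d
  rw [mul_pm, pm_mul]
  simp only [transvection, Matrix.add_apply, one_apply, single_apply, Perm.inv_eq_iff_eq,
    EmbeddingLike.apply_eq_iff_eq, Perm.eq_inv_iff_eq]

theorem diag_tv (H : Fin n → K) (a b : Fin n) {z r : K} (h : r * H b = H a * z) :
    diagonal H * transvection a b z = transvection a b r * diagonal H := by
  ext c d
  rw [diagonal_mul, mul_diagonal]
  simp only [transvection, Matrix.add_apply, one_apply, single_apply, mul_add, add_mul]
  congr 1
  · split_ifs with e <;> simp [e]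
  · split_ifs with e
    · rw [← e.1, ← e.2, h]
    · simp

/-- Upper triangular. -/
def UT (M : Matrix (Fin n) (Fin n) K) : Prop := ∀ a c, c < a → M a c = 0

/-- Upper triangular unipotent. -/
def Uni (M : Matrix (Fin n) (Fin n) K) : Prop := UT M ∧ ∀ a, M a a = 1

theorem UT.bt {M : Matrix (Fin n) (Fin n) K} (h : UT M) : M.BlockTriangular id :=
  fun a c k => h a c k

theorem UT.mul {M N : Matrix (Fin n) (Fin n) K} (h : UT M) (k : UT N) : UT (M * N) :=
  fun _ _ e => h.bt.mul k.bt e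

theorem UT.mul_diag {M N : Matrix (Fin n) (Fin n) K} (h : UT M) (k : UT N) (a : Fin n) :
    (M * N) a a = M a a * N a a := by
  rw [mul_apply, Finset.sum_eq_single a]
  · intro c _ hc
    rcases lt_or_gt_of_ne hc with e | e
    · rw [h a c e, zero_mul]
    · rw [k c a e, mul_zero]
  · simp

theorem UT.det {M : Matrix (Fin n) (Fin n) K} (h : UT M) : M.det = ∏ a, M a a :=
  det_of_isUpperTriangular h.bt

theorem UT.isUnit {M : Matrix (Fin n) (Fin n) K} (h : UT M) (k : ∀ a, IsUnit (M a a)) :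
    IsUnit M := by
  rw [isUnit_iff_isUnit_det, h.det]
  exact IsUnit.prod_univ_iff.2 k

theorem UT.inv {M : Matrix (Fin n) (Fin n) K} (h : UT M) (k : IsUnit M) : UT M⁻¹ := by
  obtain ⟨_⟩ := k.nonempty_invertible
  exact fun _ _ e => blockTriangular_inv_of_blockTriangular h.bt e

theorem UT.inv_diag {M : Matrix (Fin n) (Fin n) K} (h : UT M) (k : IsUnit M) (a : Fin n) :
    M⁻¹ a a * M a a = 1 := by
  rw [← (h.inv k).mul_diag h, nonsing_inv_mul _ ((isUnit_iff_isUnit_det _).1 k), one_apply_eq]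

theorem ut_diag (H : Fin n → K) : UT (diagonal H) := fun _ _ e => diagonal_apply_ne _ e.ne'

theorem uni_one : Uni (1 : Matrix (Fin n) (Fin n) K) :=
  ⟨fun _ _ e => one_apply_ne e.ne', fun _ => one_apply_eq _⟩

theorem Uni.mul {M N : Matrix (Fin n) (Fin n) K} (h : Uni M) (k : Uni N) : Uni (M * N) :=
  ⟨h.1.mul k.1, fun a => by rw [h.1.mul_diag k.1, h.2, k.2, one_mul]⟩

theorem Uni.isUnit {M : Matrix (Fin n) (Fin n) K} (h : Uni M) : IsUnit M :=
  h.1.isUnit fun a => by rw [h.2]; exact isUnit_one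

theorem Uni.inv {M : Matrix (Fin n) (Fin n) K} (h : Uni M) : Uni M⁻¹ :=
  ⟨h.1.inv h.isUnit, fun a => by simpa [h.2] using h.1.inv_diag h.isUnit a⟩

theorem uni_tv {a b : Fin n} (h : a < b) (r : K) : Uni (transvection a b r) := by
  refine ⟨fun c d e => ?_, fun c => ?_⟩
  · have : ¬(a = c ∧ b = d) := fun k => lt_asymm h (by rw [k.1, k.2]; exact e)
    simp [transvection, one_apply_ne e.ne', this]
  · have : ¬(a = c ∧ b = c) := fun k => h.ne (k.1.trans k.2.symm)
    simp [transvection, this]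

theorem UT.mul_adj {M N : Matrix (Fin n) (Fin n) K} (h : UT M) (k : UT N) (s : Sr n) :
    (M * N) s.lo s.hi = M s.lo s.lo * N s.lo s.hi + M s.lo s.hi * N s.hi s.hi := by
  rw [mul_apply, Finset.sum_eq_add s.lo s.hi s.ne]
  · intro c _ hc
    have := s.adj
    by_cases e : c < s.lo
    · rw [h _ c e, zero_mul]
    · rw [k c s.hi, mul_zero]
      simp only [ne_eq, Fin.ext_iff, Fin.lt_def] at *
      omega
  · simp
  · simp

theorem UT.conj {M : Matrix (Fin n) (Fin n) K} (h : UT M) (s : Sr n) (k : M s.lo s.hi = 0) :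
    UT (pm K s.sw * M * pm K s.sw) := fun a c e => by
  rw [mul_pm, pm_mul, s.sw_inv]
  by_cases q : c = s.lo ∧ a = s.hi
  · rw [q.1, q.2, s.sw_lo, s.sw_hi, k]
  · exact h _ _ (s.sw_lt e q)

theorem Uni.conj {M : Matrix (Fin n) (Fin n) K} (h : Uni M) (s : Sr n) (k : M s.lo s.hi = 0) :
    Uni (pm K s.sw * M * pm K s.sw) :=
  ⟨h.1.conj s k, fun a => by rw [mul_pm, pm_mul, s.sw_inv, h.2]⟩

/-- Root subgroup. -/
abbrev tv (s : Sr n) (z : K) : Matrix (Fin n) (Fin n) K := transvection s.lo s.hi z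

/-- The braid matrix. -/
def XS (s : Sr n) (z : K) : Matrix (Fin n) (Fin n) K := tv s z * pm K s.sw

theorem uni_tv' (s : Sr n) (z : K) : Uni (tv s z) := uni_tv s.lt z

theorem tv_adj (s : Sr n) (z : K) : tv s z s.lo s.hi = z := by
  simp [transvection, one_apply_ne s.ne]

theorem tv_zero (s : Sr n) : tv s (0 : K) = 1 := transvection_zero _ _

theorem tv_mul (s : Sr n) (z w : K) : tv s z * tv s w = tv s (z + w) :=
  transvection_mul_transvection_same _ _ s.ne _ _

theorem isUnit_XS (s : Sr n) (z : K) : IsUnit (XS s z) := (uni_tv' s z).isUnit.mul (isUnit_pm _)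

/-- The unipotent factor before conjugation. -/
def v0 (s : Sr n) (U : Matrix (Fin n) (Fin n) K) (z : K) : Matrix (Fin n) (Fin n) K :=
  tv s (-(z + U s.lo s.hi)) * U * tv s z

/-- The new unipotent factor. -/
def vv (s : Sr n) (U : Matrix (Fin n) (Fin n) K) (z : K) : Matrix (Fin n) (Fin n) K :=
  pm K s.sw * v0 s U z * pm K s.sw

theorem uni_v0 (s : Sr n) {U : Matrix (Fin n) (Fin n) K} (h : Uni U) (z : K) : Uni (v0 s U z) :=
  ((uni_tv' s _).mul h).mul (uni_tv' s z)

theorem uni_vv (s : Sr n) {U : Matrix (Fin n) (Fin n) K} (h : Uni U) (z : K) : Uni (vv s U z) := by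
  refine (uni_v0 s h z).conj s ?_
  have h1 := (uni_tv' s (-(z + U s.lo s.hi))).mul h
  rw [v0, h1.1.mul_adj (uni_tv' s z).1, h1.2, (uni_tv' s _).1.mul_adj h.1, (uni_tv' s z).2,
    (uni_tv' s _).2, h.2, tv_adj, tv_adj]
  ring

theorem mul_tv_eq (s : Sr n) (U : Matrix (Fin n) (Fin n) K) (z : K) :
    U * tv s z = tv s (z + U s.lo s.hi) * v0 s U z := by
  rw [v0, ← Matrix.mul_assoc, ← Matrix.mul_assoc, tv_mul, add_neg_cancel, tv_zero,
    Matrix.one_mul]

theorem v0_pm (s : Sr n) (U : Matrix (Fin n) (Fin n) K) (z : K) :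
    v0 s U z * pm K s.sw = pm K s.sw * vv s U z := by
  rw [vv, ← Matrix.mul_assoc, ← Matrix.mul_assoc, pm_mul_pm, s.sw_mul_sw, pm_one, Matrix.one_mul]

theorem mul_XS (s : Sr n) (U : Matrix (Fin n) (Fin n) K) (z : K) :
    U * XS s z = XS s (z + U s.lo s.hi) * vv s U z := by
  rw [XS, XS, ← Matrix.mul_assoc, mul_tv_eq, Matrix.mul_assoc, v0_pm, Matrix.mul_assoc]

/-- The torus element of a stay step. -/
def dd (s : Sr n) (z w : K) (a : Fin n) : K := if a = s.lo then z else if a = s.hi then -w else 1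

theorem XS_apply (s : Sr n) (z : K) (a b : Fin n) :
    XS s z a b = (if a = s.sw b then 1 else 0) + if s.lo = a ∧ s.lo = b then z else 0 := by
  rw [XS, mul_pm]
  simp only [transvection, Matrix.add_apply, one_apply, single_apply]
  have : s.hi = s.sw b ↔ s.lo = b := by rw [← s.sw_lo, EmbeddingLike.apply_eq_iff_eq]
  simp only [this]

theorem sl2 (s : Sr n) {z w : K} (h : w * z = 1) :
    XS s z * tv s (-w) = pm K s.sw * (tv s w * diagonal fun a => dd s z w (s.sw a)) * pm K s.sw := by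
  ext a b
  rw [mul_pm, pm_mul, mul_diagonal, s.sw_inv, s.sw_sw]
  have hn := s.ne
  have e1 : s.lo = s.sw a ↔ a = s.hi := by
    rw [← s.sw_hi, EmbeddingLike.apply_eq_iff_eq, eq_comm]
  have e2 : s.hi = s.sw b ↔ b = s.lo := by
    rw [← s.sw_lo, EmbeddingLike.apply_eq_iff_eq, eq_comm]
  have e3 : tv s w (s.sw a) (s.sw b) = (if a = b then 1 else 0) +
      if a = s.hi ∧ b = s.lo then w else 0 := by
    simp only [transvection, Matrix.add_apply, one_apply, single_apply, EmbeddingLike.apply_eq_iff_eq,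
      e1, e2]
  rw [e3]
  by_cases hb : b = s.hi
  · subst hb
    rw [mul_transvection_apply_same, XS_apply, XS_apply]
    by_cases h1 : a = s.lo
    · subst h1; simp [dd, hn, hn.symm, h]
    · by_cases h2 : a = s.hi
      · subst h2; simp [dd, hn, hn.symm]
      · simp [h1, h2, hn, hn.symm, Ne.symm h1]
  · rw [mul_transvection_apply_of_ne _ _ _ _ hb, XS_apply]
    by_cases hl : b = s.lo
    · subst hl
      by_cases h1 : a = s.lo
      · subst h1; simp [dd, hn]
      · by_cases h2 : a = s.hi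
        · subst h2; simp [dd, hn, hn.symm, h]
        · simp [h1, h2, Ne.symm h1]
    · simp [s.sw_ne hl hb, dd, hl, hb, Ne.symm hl]

theorem step_up (s : Sr n) (U U' : Matrix (Fin n) (Fin n) K) (p : Perm (Fin n)) (H : Fin n → K)
    {z r : K} (h : r * H s.hi = H s.lo * (z + U' s.lo s.hi)) :
    U * pm K p * diagonal H * U' * XS s z = U * transvection (p s.lo) (p s.hi) r *
      pm K (p * s.sw) * diagonal (fun a => H (s.sw a)) * vv s U' z := by
  rw [Matrix.mul_assoc _ U', mul_XS, XS, ← pm_mul_pm]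
  simp only [Matrix.mul_assoc]
  rw [← Matrix.mul_assoc (diagonal H), diag_tv H _ _ h, ← Matrix.mul_assoc (transvection _ _ _) (pm K p),
    ← pm_tv, ← Matrix.mul_assoc (pm K s.sw), ← diag_pm]
  simp only [Matrix.mul_assoc]

theorem step_stay (s : Sr n) (U U' : Matrix (Fin n) (Fin n) K) (p : Perm (Fin n)) (H : Fin n → K)
    {z w r : K} (hw : w * (z + U' s.lo s.hi) = 1) (h : r * H s.lo = H s.hi * w) :
    U * pm K p * diagonal H * U' * XS s z = U * transvection (p s.hi) (p s.lo) r *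
      pm K p * diagonal (fun a => H a * dd s (z + U' s.lo s.hi) w a) * (tv s w * vv s U' z) := by
  have e : XS s (z + U' s.lo s.hi) = transvection s.hi s.lo w *
      diagonal (dd s (z + U' s.lo s.hi) w) * tv s w := by
    have := congrArg (· * tv s w) (sl2 s hw)
    simp only [Matrix.mul_assoc, tv_mul, neg_add_cancel, transvection_zero, Matrix.mul_one] at this
    rw [this, ← Matrix.mul_assoc (diagonal _), diag_pm, ← Matrix.mul_assoc (pm K s.sw), pm_tv,
      s.sw_lo, s.sw_hi]
    simp only [Matrix.mul_assoc, s.sw_sw]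
    rw [← Matrix.mul_assoc (pm K s.sw), pm_mul_pm, s.sw_mul_sw, pm_one, Matrix.one_mul]
  rw [Matrix.mul_assoc _ U', mul_XS, e, ← diagonal_mul_diagonal]
  simp only [Matrix.mul_assoc]
  rw [← Matrix.mul_assoc (diagonal H), diag_tv H _ _ h,
    ← Matrix.mul_assoc (transvection _ _ _) (pm K p), ← pm_tv]
  simp only [Matrix.mul_assoc]

/-- The entry next to the diagonal of the right factor is determined at a descent. -/
theorem adj_unique (s : Sr n) {U U' V V' : Matrix (Fin n) (Fin n) ℂ} {p : Perm (Fin n)}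
    {H G : Fin n → ℂ} (hU : Uni U) (hU' : Uni U') (hV : Uni V) (hV' : Uni V') (hG : ∀ a, G a ≠ 0)
    (hp : p s.hi < p s.lo) (e : U * pm ℂ p * diagonal H * U' = V * pm ℂ p * diagonal G * V') :
    U' s.lo s.hi = V' s.lo s.hi := by
  have i1 := (isUnit_iff_isUnit_det _).1 hV.isUnit
  have i2 := (isUnit_iff_isUnit_det _).1 hU'.isUnit
  have e2 : V⁻¹ * U * pm ℂ p * diagonal H = pm ℂ p * (diagonal G * (V' * U'⁻¹)) := by
    have := congrArg (fun M => V⁻¹ * M * U'⁻¹) e
    simpa only [Matrix.mul_assoc, mul_nonsing_inv _ i2, Matrix.mul_one,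
      nonsing_inv_mul_cancel_left _ _ i1] using this
  have e3 := congrFun (congrFun e2 (p s.lo)) s.hi
  rw [mul_diagonal, mul_pm, (hV.inv.mul hU).1 _ _ hp, zero_mul, pm_mul, diagonal_mul,
    pinv] at e3
  have e4 := (mul_eq_zero.1 e3.symm).resolve_left (hG _)
  have e5 : V' = V' * U'⁻¹ * U' := (nonsing_inv_mul_cancel_right _ _ i2).symm
  rw [e5, (hV'.mul hU'.inv).1.mul_adj hU'.1, e4, (hV'.mul hU'.inv).2]
  ring

theorem perm_eq_one {p : Perm (Fin n)} (h : ∀ a, p a ≤ a) : p = 1 := by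
  ext a
  have := (Finset.sum_eq_sum_iff_of_le (s := Finset.univ) (f := fun a => (p a).1)
    (g := fun a : Fin n => a.1) fun a _ => h a).1 (Equiv.sum_comp p fun a : Fin n => a.1) a (by simp)
  simpa using this

/-- Uniqueness of the Bruhat position. -/
theorem pm_unique {B B' : Matrix (Fin n) (Fin n) ℂ} {p q : Perm (Fin n)} (hB : ∀ a, B a a ≠ 0)
    (hB' : UT B') (e : pm ℂ p * B * pm ℂ q = B') : p * q = 1 :=
  perm_eq_one fun a => not_lt.1 fun k => hB (q a) (by
    have := hB' _ _ k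
    rwa [← e, mul_pm, pm_mul, Perm.mul_apply, pinv] at this)

end P275BC
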