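import Vale.Agent.P275BC.Wd

/-! The state of the walk on a subset of affine space. -/

namespace P275BC

open Matrix Equiv HG

variable {n : ℕ} {ι : Type} {S S' : Set (ι → ℂ)} {T T' : Set ((ι → ℂ) → ℂ)}
  {f g : (ι → ℂ) → ℂ} {j : ((ι → ℂ) → ℂ) → K0} {F G : (ι → ℂ) → Matrix (Fin n) (Fin n) ℂ}

/-- Monomials in the functions of `T`. -/
def Mn (S : Set (ι → ℂ)) (T : Set ((ι → ℂ) → ℂ)) (f : (ι → ℂ) → ℂ) : Prop :=
  Reg S f ∧ (∀ x ∈ S, f x ≠ 0) ∧ ∀ S' ⊆ S, ∀ (a b : ℕ) (c : Cell S' (Fin a) (Fin b)),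
    (∀ t ∈ T, c.Mon t) → c.Mon f

/-- Constant logarithmic forms in the functions of `T`. -/
def Lm (S : Set (ι → ℂ)) (T : Set ((ι → ℂ) → ℂ)) (w : (((ι → ℂ) → ℂ) → K0) → ℂ) : Prop :=
  ∀ S' ⊆ S, ∀ (a b : ℕ) (c : Cell S' (Fin a) (Fin b)), (∀ t ∈ T, c.Mon t) → ∃ Ω, c.LogC w Ω

theorem Mn.mono (h : Mn S T f) (hs : S' ⊆ S) (ht : T ⊆ T') : Mn S' T' f :=
  ⟨h.1.mono hs, fun x hx => h.2.1 x (hs hx), fun _ k a b c e =>
    h.2.2 _ (k.trans hs) a b c fun t m => e t (ht m)⟩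

theorem Mn.const {c : ℂ} (h : c ≠ 0) : Mn S T fun _ => c :=
  ⟨Reg.const c, fun _ _ => h, fun _ _ _ _ _ _ => Cell.Mon.const h⟩

theorem Mn.congr (h : Mn S T f) (e : ∀ x ∈ S, g x = f x) : Mn S T g :=
  ⟨h.1.congr e, fun x hx => e x hx ▸ h.2.1 x hx, fun _ k a b c m =>
    (h.2.2 _ k a b c m).congr fun x hx => e x (k hx)⟩

theorem Mn.mul (h : Mn S T f) (k : Mn S T g) : Mn S T fun x => f x * g x :=
  ⟨h.1.mul k.1, fun x hx => mul_ne_zero (h.2.1 x hx) (k.2.1 x hx), fun _ s a b c m =>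
    (h.2.2 _ s a b c m).mul (k.2.2 _ s a b c m)⟩

theorem Mn.inv (h : Mn S T f) : Mn S T fun x => (f x)⁻¹ :=
  ⟨h.1.inv h.2.1, fun x hx => inv_ne_zero (h.2.1 x hx), fun _ s a b c m => (h.2.2 _ s a b c m).inv⟩

theorem Mn.neg (h : Mn S T f) : Mn S T fun x => -f x :=
  ((Mn.const (neg_ne_zero.2 one_ne_zero)).mul h).congr (by simp)

theorem Mn.gen (h : f ∈ T) (r : Reg S f) (k : ∀ x ∈ S, f x ≠ 0) : Mn S T f :=
  ⟨r, k, fun _ _ _ _ _ m => m f h⟩

theorem Mn.prod {J : Type*} (s : Finset J) {F : J → (ι → ℂ) → ℂ} (h : ∀ i ∈ s, Mn S T (F i)) :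
    Mn S T fun x => ∏ i ∈ s, F i x :=
  ⟨Reg.prod s fun i hi => (h i hi).1,
    fun x hx => Finset.prod_ne_zero_iff.2 fun i hi => (h i hi).2.1 x hx,
    fun _ k a b c m => Cell.Mon.prod s fun i hi => (h i hi).2.2 _ k a b c m⟩

theorem Mn.isUnit (h : Mn S T f) (hj : Ctx S j) : IsUnit (j f) := K0.isUnit (hj.fst_ne h.2.1)

section
variable {w w' : (((ι → ℂ) → ℂ) → K0) → ℂ}

theorem Lm.mono (h : Lm S T w) (hs : S' ⊆ S) (ht : T ⊆ T') : Lm S' T' w :=
  fun _ k a b c e => h _ (k.trans hs) a b c fun t m => e t (ht m)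

theorem Lm.zero : Lm S T fun _ => 0 := fun _ _ _ _ _ _ => ⟨0, fun _ _ => by simp⟩

theorem Lm.add (h : Lm S T w) (k : Lm S T w') : Lm S T fun j => w j + w' j := fun _ s a b c m => by
  obtain ⟨Ω, h1⟩ := h _ s a b c m
  obtain ⟨Ω', h2⟩ := k _ s a b c m
  exact ⟨Ω + Ω', fun j hj => by
    simp only [h1 j hj, h2 j hj, Matrix.add_apply, add_mul, Finset.sum_add_distrib]⟩

theorem Lm.neg (h : Lm S T w) : Lm S T fun j => -w j := fun _ s a b c m => by
  obtain ⟨Ω, h1⟩ := h _ s a b c m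
  exact ⟨-Ω, fun j hj => by
    simp only [h1 j hj, Matrix.neg_apply, neg_mul, Finset.sum_neg_distrib]⟩

theorem Lm.congr (h : Lm S T w) (e : ∀ j, Ctx S j → w' j = w j) : Lm S T w' := fun _ s a b c m =>
  let ⟨Ω, h1⟩ := h _ s a b c m
  ⟨Ω, fun j hj => (e j (hj.mono s)).trans (h1 j hj)⟩

theorem Lm.sum {J : Type*} (s : Finset J) {F : J → (((ι → ℂ) → ℂ) → K0) → ℂ}
    (h : ∀ i ∈ s, Lm S T (F i)) : Lm S T fun j => ∑ i ∈ s, F i j := by
  classical
  induction s using Finset.induction_on with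
  | empty => exact Lm.zero.congr (by simp)
  | insert a s ha ih =>
    exact ((h a (by simp)).add (ih fun j hj => h j (by simp [hj]))).congr
      fun x _ => Finset.sum_insert ha

theorem Lm.wg (h : Mn S T f) (k : Mn S T g) : Lm S T fun j => wg (j f) (j g) :=
  fun _ s a b c m => by
  obtain ⟨e, he⟩ := (h.2.2 _ s a b c m).lg
  obtain ⟨e', he'⟩ := (k.2.2 _ s a b c m).lg
  refine ⟨fun i k => e i * e' k - e' i * e k, fun j hj => ?_⟩
  simp only [P275BC.wg, he j hj, he' j hj, Prod.fst_sum, Prod.snd_sum, Prod.smul_fst, Prod.smul_snd,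
    smul_eq_mul]
  rw [mul_comm (∑ i, e i * (lg _).2), Finset.sum_mul_sum, Finset.sum_mul_sum,
    ← Finset.sum_sub_distrib]
  refine Finset.sum_congr rfl fun i _ => ?_
  rw [← Finset.sum_sub_distrib]
  exact Finset.sum_congr rfl fun k _ => by ring

end

/-- Regular matrix valued functions. -/
def RM (S : Set (ι → ℂ)) (F : (ι → ℂ) → Matrix (Fin n) (Fin n) ℂ) : Prop :=
  ∀ a b, Reg S fun x => F x a b

/-- The jet of a matrix valued function. -/
def jm (j : ((ι → ℂ) → ℂ) → K0) (F : (ι → ℂ) → Matrix (Fin n) (Fin n) ℂ) : MJ n :=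
  of fun a b => j fun x => F x a b

theorem RM.mono (h : RM S F) (hs : S' ⊆ S) : RM S' F := fun a b => (h a b).mono hs

theorem RM.congr (h : RM S F) (e : ∀ x ∈ S, G x = F x) : RM S G :=
  fun a b => (h a b).congr fun x hx => by rw [e x hx]

theorem RM.const (M : Matrix (Fin n) (Fin n) ℂ) : RM S fun _ => M := fun _ _ => Reg.const _

theorem RM.mul (h : RM S F) (k : RM S G) : RM S fun x => F x * G x := fun a b =>
  (Reg.sum Finset.univ fun c _ => (h a c).mul (k c b)).congr fun _ _ => mul_apply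

theorem RM.tv (h : Reg S f) (a b : Fin n) : RM S fun x => transvection a b (f x) := fun c d => by
  simp only [transvection, Matrix.add_apply, single_apply]
  refine (Reg.const _).add ?_
  split_ifs
  exacts [h, Reg.const _]

theorem RM.diag {H : (ι → ℂ) → Fin n → ℂ} (h : ∀ a, Reg S fun x => H x a) :
    RM S fun x => diagonal (H x) := fun c d => by
  simp only [diagonal_apply]
  split_ifs
  exacts [h c, Reg.const _]

theorem RM.inv (h : RM S F) (k : ∀ x ∈ S, (F x).det ≠ 0) : RM S fun x => (F x)⁻¹ := fun a b => by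
  refine (((Reg.det h).inv k).mul (Reg.det (M := fun x => (F x).updateRow b (Pi.single a 1))
    fun c d => ?_)).congr fun x _ => ?_
  · simp only [updateRow_apply]
    split_ifs
    exacts [Reg.const _, h c d]
  · beta_reduce
    rw [Matrix.inv_def, Matrix.smul_apply, adjugate_apply, Ring.inverse_eq_inv', smul_eq_mul]

theorem RM.XS (h : Reg S f) (s : Sr n) : RM S fun x => XS s (f x) := (RM.tv h _ _).mul (RM.const _)

theorem RM.XL {κ : Type} {ψ : (ι → ℂ) → κ → ℂ} (h : ∀ k, Reg S fun x => ψ x k)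
    (l : List (Sr n × κ)) : RM S fun x => XL l (ψ x) := by
  induction l with
  | nil => exact RM.const _
  | cons q l ih => exact ((RM.XS (h q.2) q.1).mul ih).congr fun x _ => XL_cons _ _ _

theorem jm_cgr (hj : Ctx S j) (e : ∀ x ∈ S, F x = G x) : jm j F = jm j G := by
  ext1 a b; exact hj.cgr _ _ fun x hx => by rw [e x hx]

theorem jm_mul (hj : Ctx S j) (h : RM S F) (k : RM S G) :
    jm j (fun x => F x * G x) = jm j F * jm j G := by
  ext1 a b
  simp only [jm, of_apply, mul_apply]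
  rw [hj.sum _ fun c _ => (h a c).mul (k c b)]
  exact Finset.sum_congr rfl fun c _ => hj.mul _ _ (h a c) (k c b)

theorem jm_pm (hj : Ctx S j) (p : Perm (Fin n)) : jm j (fun _ => pm ℂ p) = pm K0 p := by
  ext1 a b
  simp only [jm, pm, of_apply]
  split_ifs
  exacts [hj.one, hj.zero]

theorem jm_one (hj : Ctx S j) : jm j (fun _ => (1 : Matrix (Fin n) (Fin n) ℂ)) = 1 := by
  rw [← pm_one, jm_pm hj, pm_one]

theorem jm_tv (hj : Ctx S j) (h : Reg S f) (a b : Fin n) :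
    jm j (fun x => transvection a b (f x)) = transvection a b (j f) := by
  ext1 c d
  simp only [jm, of_apply, transvection, Matrix.add_apply, single_apply, one_apply]
  split_ifs
  · rw [hj.add _ _ (Reg.const 1) h, hj.one]
  · simpa using hj.one
  · simp
  · simpa using hj.zero

theorem jm_diag (hj : Ctx S j) (H : (ι → ℂ) → Fin n → ℂ) :
    jm j (fun x => diagonal (H x)) = diagonal fun a => j fun x => H x a := by
  ext1 c d
  simp only [jm, of_apply, diagonal_apply]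
  split_ifs
  exacts [rfl, hj.zero]

theorem jm_XS (hj : Ctx S j) (h : Reg S f) (s : Sr n) :
    jm j (fun x => XS s (f x)) = XS s (j f) := by
  rw [XS, tv, ← jm_tv hj h, ← jm_pm hj, ← jm_mul hj (RM.tv h _ _) (RM.const _)]; rfl

theorem jm_XL {κ : Type} {ψ : (ι → ℂ) → κ → ℂ} (hj : Ctx S j) (h : ∀ k, Reg S fun x => ψ x k)
    (l : List (Sr n × κ)) : jm j (fun x => XL l (ψ x)) = XL l fun k => j fun x => ψ x k := by
  induction l with
  | nil => exact jm_one hj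
  | cons q l ih =>
    rw [XL_cons, ← ih, ← jm_XS hj (h q.2), ← jm_mul hj (RM.XS (h q.2) q.1) (RM.XL h l)]
    exact jm_cgr hj fun x _ => XL_cons _ _ _

theorem jm_ut (hj : Ctx S j) (h : ∀ x ∈ S, UT (F x)) : UT (jm j F) :=
  fun a c e => hj.of_cst fun x hx => h x hx a c e

theorem jm_uni (hj : Ctx S j) (h : ∀ x ∈ S, Uni (F x)) : Uni (jm j F) :=
  ⟨jm_ut hj fun x hx => (h x hx).1, fun a => hj.of_cst fun x hx => (h x hx).2 a⟩

theorem jm_bo (hj : Ctx S j) (h : ∀ x ∈ S, UT (F x)) (k : ∀ a, ∀ x ∈ S, F x a a ≠ 0) :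
    Bo (jm j F) := ⟨jm_ut hj h, fun a => K0.isUnit (hj.fst_ne (k a))⟩

theorem RM.vv (h : RM S F) (k : Reg S f) (s : Sr n) : RM S fun x => vv s (F x) (f x) :=
  ((RM.const _).mul (((RM.tv (k.add (h _ _)).neg _ _).mul h).mul (RM.tv k _ _))).mul (RM.const _)

theorem jm_vv (hj : Ctx S j) (h : RM S F) (k : Reg S f) (s : Sr n) :
    jm j (fun x => vv s (F x) (f x)) = vv s (jm j F) (j f) := by
  have r := k.add (h s.lo s.hi)
  have r1 := RM.tv r.neg s.lo s.hi
  have r2 := RM.tv k s.lo s.hi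
  simp only [vv, v0]
  rw [jm_mul hj ((RM.const _).mul ((r1.mul h).mul r2)) (RM.const _),
    jm_mul hj (RM.const _) ((r1.mul h).mul r2), jm_mul hj (r1.mul h) r2, jm_mul hj r1 h, jm_pm hj,
    jm_tv hj r.neg, jm_tv hj k, hj.neg r, hj.add _ _ k (h _ _)]
  rfl

/-- `y` has Bruhat position `p` on `S`, with monomial torus part, and `γ` is the lift of `y` given
by the factorisation, up to a constant logarithmic form. -/
def St (S : Set (ι → ℂ)) (T : Set ((ι → ℂ) → ℂ)) (y : (ι → ℂ) → Matrix (Fin n) (Fin n) ℂ)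
    (γ : (((ι → ℂ) → ℂ) → K0) → HG n) (p : Perm (Fin n)) : Prop :=
  ∃ (u u' : (ι → ℂ) → Matrix (Fin n) (Fin n) ℂ) (h : (ι → ℂ) → Fin n → ℂ)
    (w : (((ι → ℂ) → ℂ) → K0) → ℂ), RM S u ∧ RM S u' ∧ (∀ x ∈ S, Uni (u x)) ∧
    (∀ x ∈ S, Uni (u' x)) ∧ (∀ a, Mn S T fun x => h x a) ∧
    (∀ x ∈ S, y x = u x * pm ℂ p * diagonal (h x) * u' x) ∧ Lm S T w ∧
    ∀ j, Ctx S j → γ j = GG (jm j u) p (fun a => j fun x => h x a) (jm j u') * cz (w j)

variable {y y' : (ι → ℂ) → Matrix (Fin n) (Fin n) ℂ} {γ γ' : (((ι → ℂ) → ℂ) → K0) → HG n}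
  {p : Perm (Fin n)}

theorem St.mono (h : St S T y γ p) (hs : S' ⊆ S) (ht : T ⊆ T') : St S' T' y γ p :=
  let ⟨u, u', h, w, a1, a2, a3, a4, a5, a6, a7, a8⟩ := h
  ⟨u, u', h, w, a1.mono hs, a2.mono hs, fun x hx => a3 x (hs hx), fun x hx => a4 x (hs hx),
    fun a => (a5 a).mono hs ht, fun x hx => a6 x (hs hx), a7.mono hs ht,
    fun j hj => a8 j (hj.mono hs)⟩

theorem St.congr {w' : (((ι → ℂ) → ℂ) → K0) → ℂ} (h : St S T y γ p) (e : ∀ x ∈ S, y' x = y x)
    (hw : Lm S T w') (e' : ∀ j, Ctx S j → γ' j = γ j * cz (w' j)) : St S T y' γ' p :=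
  let ⟨u, u', h, _, a1, a2, a3, a4, a5, a6, a7, a8⟩ := h
  ⟨u, u', h, _, a1, a2, a3, a4, a5, fun x hx => (e x hx).trans (a6 x hx), a7.add hw,
    fun j hj => by rw [e' j hj, a8 j hj, mul_assoc, cz_add]⟩

theorem St.one : St S T (fun _ => (1 : Matrix (Fin n) (Fin n) ℂ)) (fun _ => 1) 1 :=
  ⟨fun _ => 1, fun _ => 1, fun _ _ => 1, fun _ => 0, RM.const _, RM.const _, fun _ _ => uni_one,
    fun _ _ => uni_one, fun _ => Mn.const one_ne_zero, fun _ _ => by simp [pm_one], Lm.zero,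
    fun j hj => by simp [GG, jm_one hj, hj.one, pm_one, sj_one, cz_zero]⟩

theorem St.up (h : St S T y γ p) (s : Sr n) (hf : Reg S f) (hp : p s.lo < p s.hi) :
    St S T (fun x => y x * XS s (f x)) (fun j => γ j * sj (XS s (j f))) (p * s.sw) := by
  obtain ⟨u, u', h, w, a1, a2, a3, a4, a5, a6, a7, a8⟩ := h
  have r0 := hf.add (a2 s.lo s.hi)
  have r1 := (a5 s.lo).1.mul r0
  have r := r1.mul (a5 s.hi).inv.1
  have e : ∀ x ∈ S, h x s.lo * (f x + u' x s.lo s.hi) * (h x s.hi)⁻¹ * h x s.hi =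
      h x s.lo * (f x + u' x s.lo s.hi) := fun x hx => inv_mul_cancel_right₀ ((a5 _).2.1 x hx) _
  refine ⟨_, _, fun x a => h x (s.sw a), w, a1.mul (RM.tv r (p s.lo) (p s.hi)), a2.vv hf s,
    fun x hx => (a3 x hx).mul (uni_tv hp _), fun x hx => uni_vv s (a4 x hx) _, fun a => a5 _,
    fun x hx => by beta_reduce; rw [a6 x hx, step_up s _ _ p _ (e x hx)], a7, fun j hj => ?_⟩
  beta_reduce
  rw [a8 j hj, mul_assoc, cz_mul, ← mul_assoc, jm_mul hj a1 (RM.tv r _ _), jm_tv hj r, jm_vv hj a2 hf,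
    GG_up s (jm_uni hj a3) (jm_uni hj a4) (fun a => (a5 a).isUnit hj) (Or.inl hp)]
  rw [← hj.mul _ _ r (a5 _).1, hj.cgr _ _ e, hj.mul _ _ (a5 _).1 r0, hj.add _ _ hf (a2 _ _)]
  rfl

theorem St.desc (h : St S T y γ p) (s : Sr n) (hf : Reg S f) (hp : p s.hi < p s.lo) :
    ∃ r, Reg S r ∧ (∀ x ∈ S, ∀ x' ∈ S, ∀ t t' : Fin n → ℂˣ, diagonal (fun a => (t a : ℂ)) * y x =
      y x' * diagonal (fun a => (t' a : ℂ)) → r x' = t' s.lo * (t' s.hi : ℂ)⁻¹ * r x) ∧
    (∀ S' ⊆ S, (∀ x ∈ S', f x + r x = 0) →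
      St S' T (fun x => y x * XS s (f x)) (fun j => γ j * sj (XS s (j f))) (p * s.sw)) ∧
    ∀ S' ⊆ S, ∀ T' ⊇ T, (Mn S' T' fun x => f x + r x) →
      St S' T' (fun x => y x * XS s (f x)) (fun j => γ j * sj (XS s (j f))) p := by
  obtain ⟨u, u', h, w, a1, a2, a3, a4, a5, a6, a7, a8⟩ := h
  refine ⟨fun x => u' x s.lo s.hi, a2 _ _, fun x hx x' hx' t t' e => ?_, fun S' hs h0 => ?_,
    fun S' hs T' ht hm => ?_⟩
  · have cj : ∀ (t : Fin n → ℂˣ) {M : Matrix (Fin n) (Fin n) ℂ}, Uni M →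
        Uni (diagonal (fun a => (t a : ℂ)) * M * diagonal fun a => (t a : ℂ)⁻¹) := fun t M hM =>
      ⟨((ut_diag _).mul hM.1).mul (ut_diag _), fun a => by simp [hM.2]⟩
    beta_reduce
    rw [adj_unique s (a3 x' hx') (a4 x' hx') (cj t (a3 x hx)) (cj t' (a4 x hx)) (H := h x')
      (G := fun a => t (p a) * h x a * (t' a : ℂ)⁻¹) (fun a => by simp [(a5 a).2.1 x hx]) hp]
    · simp only [mul_diagonal, diagonal_mul]; ring
    · have := congrArg (· * diagonal fun a => (t' a : ℂ)⁻¹) e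
      simp only [Matrix.mul_assoc (y x'), diagonal_mul_diagonal, Units.mul_inv', diagonal_one,
        Matrix.mul_one] at this
      rw [← a6 x' hx', ← this, a6 x hx]
      simp only [Matrix.mul_assoc]
      rw [← Matrix.mul_assoc (diagonal fun a => (t a : ℂ)⁻¹), diag_pm]
      simp only [Matrix.mul_assoc]
      simp only [← Matrix.mul_assoc (diagonal _) (diagonal _), diagonal_mul_diagonal]
      congr 5; funext a; field_simp
  · refine ⟨u, _, fun x a => h x (s.sw a), w, a1.mono hs, (a2.vv hf s).mono hs,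
      fun x hx => a3 x (hs hx), fun x hx => uni_vv s (a4 x (hs hx)) _,
      fun a => (a5 _).mono hs subset_rfl, fun x hx => ?_, a7.mono hs subset_rfl, fun j hj' => ?_⟩
    · beta_reduce at h0 ⊢
      rw [a6 x (hs hx), step_up s _ _ p _ (r := 0) (by rw [h0 x hx]; simp), transvection_zero,
        Matrix.mul_one]
    · have hj := hj'.mono hs
      beta_reduce at h0 ⊢
      rw [a8 j hj, mul_assoc, cz_mul, ← mul_assoc, jm_vv hj a2 hf, GG_up s (jm_uni hj a3)
        (jm_uni hj a4) (fun a => (a5 a).isUnit hj) (Or.inr rfl), transvection_zero, Matrix.mul_one]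
      rw [zero_mul, show jm j u' s.lo s.hi = j fun x => u' x s.lo s.hi from rfl,
        ← hj.add _ _ hf (a2 _ _), hj'.of_cst h0, jt_zero, mul_zero]
  · beta_reduce at hm
    have b5 := fun a => (a5 a).mono hs ht
    have r := ((b5 s.hi).mul hm.inv).mul (b5 s.lo).inv
    have e : ∀ x ∈ S', h x s.hi * (f x + u' x s.lo s.hi)⁻¹ * (h x s.lo)⁻¹ * h x s.lo =
        h x s.hi * (f x + u' x s.lo s.hi)⁻¹ := fun x hx =>
      inv_mul_cancel_right₀ ((b5 _).2.1 x hx) _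
    have d : ∀ a, Mn S' T' fun x => dd s (f x + u' x s.lo s.hi) (f x + u' x s.lo s.hi)⁻¹ a :=
      fun a => by
        unfold dd
        split_ifs
        exacts [hm, hm.inv.neg, Mn.const one_ne_zero]
    have b2 := a2.mono hs
    have hf' := hf.mono hs
    refine ⟨_, _, fun x a => h x a * dd s (f x + u' x s.lo s.hi) (f x + u' x s.lo s.hi)⁻¹ a, _,
      (a1.mono hs).mul (RM.tv r.1 (p s.hi) (p s.lo)), (RM.tv hm.inv.1 s.lo s.hi).mul (b2.vv hf' s),
      fun x hx => (a3 x (hs hx)).mul (uni_tv hp _),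
      fun x hx => (uni_tv' s _).mul (uni_vv s (a4 x (hs hx)) _), fun a => (b5 a).mul (d a),
      fun x hx => ?_, (Lm.sum Finset.univ fun a _ => Lm.wg (b5 (s.sw a)) (d (s.sw a))).add
        (a7.mono hs ht), fun j hj => ?_⟩
    · beta_reduce
      rw [a6 x (hs hx), step_stay s _ _ p _ (inv_mul_cancel₀ (hm.2.1 x hx)) (e x hx)]
    · have hz : j f + jm j u' s.lo s.hi = j fun x => f x + u' x s.lo s.hi :=
        (hj.add _ _ hf' (b2 _ _)).symm
      have hd : ∀ a, dd s (j f + jm j u' s.lo s.hi) (j fun x => (f x + u' x s.lo s.hi)⁻¹) a =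
          j fun x => dd s (f x + u' x s.lo s.hi) (f x + u' x s.lo s.hi)⁻¹ a := fun a => by
        unfold dd
        split_ifs
        exacts [hz, (hj.neg hm.inv.1).symm, hj.one.symm]
      beta_reduce
      rw [a8 j (hj.mono hs), mul_assoc, cz_mul, ← mul_assoc, jm_mul hj (a1.mono hs) (RM.tv r.1 _ _),
        jm_tv hj r.1, jm_mul hj (RM.tv hm.inv.1 _ _) (b2.vv hf' s), jm_tv hj hm.inv.1,
        jm_vv hj b2 hf', GG_stay s (jm_uni (hj.mono hs) a3) (jm_uni (hj.mono hs) a4)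
          (fun a => (b5 a).isUnit hj) hp (w := j fun x => (f x + u' x s.lo s.hi)⁻¹), mul_assoc, cz_add]
      · simp only [hd, fun a => hj.mul _ _ (b5 a).1 (d a).1]
        rfl
      · rw [hz, mul_comm]; exact hj.inv hm.1 hm.2.1
      · rw [← hj.mul _ _ r.1 (b5 _).1, hj.cgr _ _ e, hj.mul _ _ (b5 _).1 hm.inv.1]

theorem St.bo (h : St S T y γ p) (hF : RM S F) (hu : ∀ x ∈ S, UT (F x))
    (hm : ∀ a, Mn S T fun x => F x a a) :
    St S T (fun x => y x * F x) (fun j => γ j * sj (jm j F)) p := by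
  obtain ⟨u, u', h, w, a1, a2, a3, a4, a5, a6, a7, a8⟩ := h
  have r := (RM.diag fun a => (hm a).inv.1).mul (a2.mul hF)
  have e : ∀ x ∈ S, u' x * F x = diagonal (fun a => F x a a) *
      (diagonal (fun a => (F x a a)⁻¹) * (u' x * F x)) := fun x hx => by
    rw [← Matrix.mul_assoc, diagonal_mul_diagonal]
    simp [fun a => mul_inv_cancel₀ ((hm a).2.1 x hx)]
  have v : ∀ x ∈ S, Uni (diagonal (fun a => (F x a a)⁻¹) * (u' x * F x)) := fun x hx =>
    ⟨(ut_diag _).mul ((a4 x hx).1.mul (hu x hx)), fun a => by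
      rw [diagonal_mul, (a4 x hx).1.mul_diag (hu x hx), (a4 x hx).2, one_mul,
        inv_mul_cancel₀ ((hm a).2.1 x hx)]⟩
  refine ⟨u, _, fun x a => h x a * F x a a, _, a1, r, a3, v, fun a => (a5 a).mul (hm a),
    fun x hx => ?_, (Lm.sum Finset.univ fun a _ => Lm.wg (a5 a) (hm a)).add a7, fun j hj => ?_⟩
  · beta_reduce
    rw [a6 x hx, Matrix.mul_assoc _ (u' x), ← diagonal_mul_diagonal]
    conv_lhs => rw [e x hx]
    simp only [Matrix.mul_assoc]
  · beta_reduce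
    rw [a8 j hj, mul_assoc, cz_mul, ← mul_assoc, GG_bo (jm_uni hj a4) (jm_uni hj v)
      (fun a => (a5 a).isUnit hj) (jm_bo hj hu fun a => (hm a).2.1) (fun a => (hm a).isUnit hj),
      mul_assoc, cz_add]
    · simp only [fun a => hj.mul _ _ (a5 a).1 (hm a).1]
    · rw [← jm_mul hj a2 hF, jm_cgr hj e, jm_mul hj (RM.diag fun a => (hm a).1) r, jm_diag hj]

theorem St.fin (h : St S T y γ 1) : (∀ x ∈ S, UT (y x)) ∧ (∀ a, Mn S T fun x => y x a a) ∧
    Lm S T fun j => (γ j).z := by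
  obtain ⟨u, u', h, w, a1, a2, a3, a4, a5, a6, a7, a8⟩ := h
  refine ⟨fun x hx => ?_, fun a => (a5 a).congr fun x hx => ?_, a7.congr fun j hj => ?_⟩
  · rw [a6 x hx, pm_one, Matrix.mul_one]
    exact ((a3 x hx).1.mul (ut_diag _)).mul (a4 x hx).1
  · rw [a6 x hx, pm_one, Matrix.mul_one, ((a3 x hx).1.mul (ut_diag _)).mul_diag (a4 x hx).1,
      (a3 x hx).1.mul_diag (ut_diag _), (a3 x hx).2, (a4 x hx).2]
    simp
  · rw [a8 j hj, GG_one_z (jm_uni hj a3) (jm_uni hj a4) fun a => (a5 a).isUnit hj]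

theorem St.eq_one (h : St S T y γ p) {x : ι → ℂ} (hx : x ∈ S) (hy : UT (y x)) : p = 1 := by
  obtain ⟨u, u', h, w, a1, a2, a3, a4, a5, a6, a7, a8⟩ := h
  have i1 := (isUnit_iff_isUnit_det _).1 (a3 x hx).isUnit
  have := pm_unique (B := diagonal (h x) * u' x) (p := p) (q := 1) (fun a => by
    rw [diagonal_mul, (a4 x hx).2, mul_one]; exact (a5 a).2.1 x hx) ((a3 x hx).inv.1.mul hy) (by
    rw [a6 x hx, pm_one]
    simp only [Matrix.mul_assoc, nonsing_inv_mul_cancel_left _ _ i1, Matrix.mul_one])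
  simpa using this

end P275BC
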