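import Vale.Agent.P275BC.Hd
import Vale.Agent.P275BC.Asm

/-! The strata of the handles. -/

namespace P275BC

open Matrix Equiv HG

variable {n g : ℕ} {ι : Type}

/-- Words indexed by matrix positions. -/
abbrev Wo (n : ℕ) : Type := List (Sr n × Fin n × Fin n)

theorem det_ne {M : MC n} (h : IsUnit M) : M.det ≠ 0 := ((isUnit_iff_isUnit_det _).1 h).ne_zero

theorem unit_of_det {M : MC n} (h : M.det ≠ 0) : IsUnit M :=
  (isUnit_iff_isUnit_det _).2 (IsUnit.mk0 _ h)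

theorem edge (bru : BRU) {S : Set (ι → ℂ)} {F : (ι → ℂ) → MC n} (hF : RM S F)
    (hu : ∀ x ∈ S, IsUnit (F x)) :
    Pav (fun S' => ∃ (l : Wo n) (z : (ι → ℂ) → Fin n × Fin n → ℂ) (b : (ι → ℂ) → MC n), BW l ∧
      S' = {x ∈ S | ∃ w b, UT b ∧ F x = XL l w * b} ∧ (∀ k, Reg S' fun x => z x k) ∧ RM S' b ∧
      ∀ x ∈ S', UT (b x) ∧ IsUnit (b x) ∧ F x = XL l (z x) * b x) S := by
  have hG : ∀ k : Fin n × Fin n, Reg S fun x => F x k.1 k.2 := fun k => hF _ _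
  have := (bru n).pre (F := fun x k => F x k.1 k.2) hG
  have e : {x ∈ S | (fun k : Fin n × Fin n => F x k.1 k.2) ∈ {x | (mx x).det ≠ 0}} = S :=
    Set.sep_eq_self_iff_mem_true.2 fun x hx => det_ne (hu x hx)
  rw [e] at this
  refine this.mono ?_
  rintro _ ⟨T, ⟨l, hl, hT, Z, h1, h2⟩, rfl⟩
  have d := fun w : Fin n × Fin n → ℂ => (isUnit_iff_isUnit_det _).1 (isUnit_XL l w)
  have rz : ∀ k, Reg {x ∈ S | (fun k : Fin n × Fin n => F x k.1 k.2) ∈ T}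
      fun x => Z (fun k => F x k.1 k.2) k := fun k =>
    (h1 k).comp (fun k => (hG k).mono fun _ hx => hx.1) fun _ hx => hx.2
  refine ⟨l, fun x => Z fun k => F x k.1 k.2, fun x => (XL l (Z fun k => F x k.1 k.2))⁻¹ * F x, hl,
    ?_, rz, ((RM.XL rz l).inv fun x _ => (d _).ne_zero).mul (hF.mono fun _ hx => hx.1),
    fun x hx => ⟨h2 _ hx.2, (isUnit_inv (isUnit_XL _ _)).mul (hu x hx.1),
      (mul_nonsing_inv_cancel_left _ _ (d _)).symm⟩⟩
  ext x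
  refine and_congr_right fun hx => ?_
  rw [hT]
  refine ⟨fun ⟨_, w, h⟩ => ⟨w, _, h, (mul_nonsing_inv_cancel_left _ _ (d _)).symm⟩,
    fun ⟨w, b, hb, e⟩ => ⟨det_ne (hu x hx), w, ?_⟩⟩
  rwa [show mx (fun k : Fin n × Fin n => F x k.1 k.2) = F x from rfl, e,
    nonsing_inv_mul_cancel_left _ _ (d _)]

/-- Regular factorisations along a handle. -/
structure HS (S : Set (ι → ℂ)) (A B : (ι → ℂ) → MC n) (l : Fin 4 → Wo n)
    (z : (ι → ℂ) → Fin 4 → Fin n × Fin n → ℂ) (b : (ι → ℂ) → Fin 4 → MC n) : Prop where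
  bw : ∀ i, BW (l i)
  rz : ∀ i k, Reg S fun x => z x i k
  rb : ∀ i, RM S fun x => b x i
  fac : ∀ x ∈ S, Fac l (A x) (B x) (z x) (b x)
  z0 : ∀ x i k, k ∉ (l i).map Prod.snd → z x i k = 0

theorem HS.mono {S S' : Set (ι → ℂ)} {A B : (ι → ℂ) → MC n} {l : Fin 4 → Wo n}
    {z : (ι → ℂ) → Fin 4 → Fin n × Fin n → ℂ} {b : (ι → ℂ) → Fin 4 → MC n} (h : HS S A B l z b)
    (hs : S' ⊆ S) : HS S' A B l z b :=
  ⟨h.bw, fun i k => (h.rz i k).mono hs, fun i => (h.rb i).mono hs, fun x hx => h.fac x (hs hx), h.z0⟩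

theorem handle_pav (bru : BRU) {S : Set (ι → ℂ)} {A B : (ι → ℂ) → MC n} (hA : RM S A) (hB : RM S B)
    (uA : ∀ x ∈ S, IsUnit (A x)) (uB : ∀ x ∈ S, IsUnit (B x)) :
    Pav (fun S' => ∃ l z b, S' = {x ∈ S | ∃ w b, Fac l (A x) (B x) w b} ∧ HS S' A B l z b) S := by
  have iA := hA.inv fun x hx => det_ne (uA x hx)
  have iB := hB.inv fun x hx => det_ne (uB x hx)
  refine (edge bru hA uA).bind ?_
  rintro S0 ⟨l0, z0, b0, w0, e0, r0, s0, f0⟩
  have k0 : S0 ⊆ S := e0 ▸ fun _ hx => hx.1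
  refine (edge bru (s0.mul (hB.mono k0)) fun x hx => (f0 x hx).2.1.mul (uB x (k0 hx))).bind ?_
  rintro S1 ⟨l1, z1, b1, w1, e1, r1, s1, f1⟩
  have k1 : S1 ⊆ S0 := e1 ▸ fun _ hx => hx.1
  refine (edge bru (s1.mul (iA.mono (k1.trans k0))) fun x hx =>
    (f1 x hx).2.1.mul (isUnit_inv (uA x (k0 (k1 hx))))).bind ?_
  rintro S2 ⟨l2, z2, b2, w2, e2, r2, s2, f2⟩
  have k2 : S2 ⊆ S1 := e2 ▸ fun _ hx => hx.1
  refine (edge bru (s2.mul (iB.mono (k2.trans (k1.trans k0)))) fun x hx =>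
    (f2 x hx).2.1.mul (isUnit_inv (uB x (k0 (k1 (k2 hx)))))).mono ?_
  rintro S3 ⟨l3, z3, b3, w3, e3, r3, s3, f3⟩
  have k3 : S3 ⊆ S2 := e3 ▸ fun _ hx => hx.1
  have fa : ∀ x ∈ S3, Fac ![l0, l1, l2, l3] (A x) (B x) ![z0 x, z1 x, z2 x, z3 x]
      ![b0 x, b1 x, b2 x, b3 x] := fun x hx => by
    refine ⟨fun i => ?_, (f0 x (k1 (k2 (k3 hx)))).2.2, (f1 x (k2 (k3 hx))).2.2, (f2 x (k3 hx)).2.2,
      (f3 x hx).2.2⟩
    fin_cases i
    exacts [(f0 x (k1 (k2 (k3 hx)))).1, (f1 x (k2 (k3 hx))).1, (f2 x (k3 hx)).1, (f3 x hx).1]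
  refine ⟨![l0, l1, l2, l3], fun x i k => if k ∈ (![l0, l1, l2, l3] i).map Prod.snd then
    ![z0 x, z1 x, z2 x, z3 x] i k else 0, fun x => ![b0 x, b1 x, b2 x, b3 x], ?_, fun i => ?_,
    fun i k => ?_, fun i => ?_, fun x hx => (fa x hx).congr fun i q hq =>
      if_pos (List.mem_map_of_mem hq), fun x i k hk => if_neg hk⟩
  · refine Set.Subset.antisymm (fun x hx => ⟨k0 (k1 (k2 (k3 hx))), _, _, fa x hx⟩) ?_
    rintro x ⟨hx, w, b, t, g0, g1, g2, g3⟩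
    have m0 : x ∈ S0 := e0 ▸ ⟨hx, _, _, t 0, g0⟩
    have a0 := (w0.unique (t 0) (f0 x m0).1 (f0 x m0).2.1 (g0.symm.trans (f0 x m0).2.2)).1
    rw [a0] at g1
    have m1 : x ∈ S1 := e1 ▸ ⟨m0, _, _, t 1, g1⟩
    have a1 := (w1.unique (t 1) (f1 x m1).1 (f1 x m1).2.1 (g1.symm.trans (f1 x m1).2.2)).1
    rw [a1] at g2
    have m2 : x ∈ S2 := e2 ▸ ⟨m1, _, _, t 2, g2⟩
    have a2 := (w2.unique (t 2) (f2 x m2).1 (f2 x m2).2.1 (g2.symm.trans (f2 x m2).2.2)).1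
    rw [a2] at g3
    exact e3 ▸ ⟨m2, _, _, t 3, g3⟩
  · fin_cases i
    exacts [w0, w1, w2, w3]
  · split_ifs
    · fin_cases i
      exacts [(r0 k).mono (k3.trans (k2.trans k1)), (r1 k).mono (k3.trans k2), (r2 k).mono k3, r3 k]
    · exact Reg.const 0
  · fin_cases i
    exacts [s0.mono (k3.trans (k2.trans k1)), s1.mono (k3.trans k2), s2.mono k3, s3]

/-- Invertible tuples. -/
def Gh (n g : ℕ) : Set (Ix n g → ℂ) := {x | ∀ k e, IsUnit (mt x k e)}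

theorem rm_mt (S : Set (Ix n g → ℂ)) (k : Fin g) (e : Bool) : RM S fun x => mt x k e :=
  fun a c => Reg.coord (k, e, a, c)

theorem strata (bru : BRU) (s : Finset (Fin g)) :
    Pav (fun S => ∃ (l : Fin g → Fin 4 → Wo n) (z : Fin g → _) (b : Fin g → _),
      S = {x ∈ Gh n g | ∀ k ∈ s, ∃ w b, Fac (l k) (mt x k false) (mt x k true) w b} ∧
      ∀ k ∈ s, HS S (fun x => mt x k false) (fun x => mt x k true) (l k) (z k) (b k)) (Gh n g) := by
  induction s using Finset.induction_on with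
  | empty => exact Pav.one _ ⟨fun _ _ => [], fun _ => 0, fun _ => 0, by simp, by simp⟩
  | insert k s hk ih =>
    refine ih.bind ?_
    rintro S ⟨l, z, b, e, h⟩
    have hs : S ⊆ Gh n g := e ▸ fun _ hx => hx.1
    refine (handle_pav bru (rm_mt S k false) (rm_mt S k true) (fun x hx => hs hx k false)
      fun x hx => hs hx k true).mono ?_
    rintro S' ⟨l', z', b', e', h'⟩
    have ne : ∀ k' ∈ s, k' ≠ k := fun k' a t => hk (t ▸ a)
    refine ⟨Function.update l k l', Function.update z k z', Function.update b k b', ?_, fun k' a => ?_⟩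
    · rw [e', e]
      ext x
      simp only [Set.mem_ofPred_eq, Finset.forall_mem_insert, Function.update_self]
      constructor
      · rintro ⟨⟨a, b⟩, c⟩
        exact ⟨a, c, fun k' m => by rw [Function.update_of_ne (ne k' m)]; exact b k' m⟩
      · rintro ⟨a, c, b⟩
        exact ⟨⟨a, fun k' m => by simpa only [Function.update_of_ne (ne k' m)] using b k' m⟩, c⟩
    · rcases Finset.mem_insert.1 a with rfl | a
      · simpa using h'
      · simp only [Function.update_of_ne (ne k' a)]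
        exact (h k' a).mono (e' ▸ fun _ hx => hx.1)

/-- The commutator of the lifts in terms of the four words. -/
theorem handle {A B b0 b1 b2 b3 v0 v0i v1 v2 v3 c cw c' cw' b0' : MJ n} {p q : Perm (Fin n)}
    (uB : IsUnit B) (h0 : Bo b0) (h1 : Bo b1) (h0' : Bo b0') (hc : Bo c) (hw : Bo cw) (hc' : Bo c')
    (hw' : Bo cw') (u0 : Uni v0) (u0i : Uni v0i) (u1 : Uni v1) (u2 : Uni v2) (u3 : Uni v3)
    (eA : A = v0 * pm K0 p * b0) (eB : b0 * B = v1 * pm K0 q * b1) (a0 : v0 * v0i = 1)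
    (a1 : c * v0i = b2) (a2 : v2 * (cw * b0) = b1) (a3 : pm K0 p * cw = c * pm K0 p)
    (c0 : v1 * b0' = b0) (c1 : c' * b0' = b3) (c2 : v3 * (cw' * b1) = b2)
    (c3 : pm K0 q * cw' = c' * pm K0 q) :
    sj A * sj B * (sj A)⁻¹ * (sj B)⁻¹ = sj (v0 * pm K0 p) * (sj (v1 * pm K0 q) *
      (sj (v2 * pm K0 p⁻¹) * sj (v3 * pm K0 q⁻¹))) * sj b3 * cz (-∑ a, wg (cw a a) (b0 a a) +
        -(∑ a, wg (cw' a a) (b1 a a) + -∑ a, wg (c' a a) (b0' a a))) := by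
  have pA := pair u0i.bo h0 hc hw u0 u2 a0 a1 a2 a3
  have pB := pair h0' h1 hc' hw' u1 u3 c0 c1 c2 c3
  simp only [sj_one, _root_.inv_one, one_mul, u0i.2, wg_one_right, Finset.sum_const_zero, sub_zero] at pA
  have x0 := u0.isUnit.mul (isUnit_pm p)
  have x1 := u1.isUnit.mul (isUnit_pm q)
  have kA := sj_mul x0 h0.isUnit
  have kB : (sj b0)⁻¹ * (sj (v1 * pm K0 q) * sj b1) =
      sj B * cz (-co b0 B + co (v1 * pm K0 q) b1) := by
    rw [inv_mul_eq_iff_eq_mul, ← mul_assoc, sj_mul h0.isUnit uB, sj_mul x1 h1.isUnit, eB,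
      mul_assoc (sj _), cz_add, add_neg_cancel_left]
  rw [← eA] at kA
  have iv : ∀ (x y : HG n) (e : ℂ), x * y = cz e → x⁻¹ = y * cz (-e) := fun x y e h =>
    inv_eq_of_mul_eq_one_right (by rw [← mul_assoc, h, cz_add, add_neg_cancel, cz_zero])
  rw [← comm_cz _ _ (co (v0 * pm K0 p) b0) (-co b0 B + co (v1 * pm K0 q) b1), ← kA, ← kB,
    iv _ _ _ pA, iv _ _ _ pB, ← cz_add, sub_eq_add_neg]
  generalize (-∑ a, wg (cw a a) (b0 a a)) = e
  have hz : ∀ x y : HG n, cz e * (x * y) = x * (cz e * y) := fun x y => (cz_left _ _ _).symm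
  generalize sj (v0 * pm K0 p) = X0
  generalize sj (v1 * pm K0 q) = X1
  generalize sj (v2 * pm K0 p⁻¹) = X2
  generalize sj (v3 * pm K0 q⁻¹) = X3
  simp only [mul_assoc, mul_inv_cancel_left]
  rw [hz, hz, hz, mul_inv_cancel_left]

end P275BC
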