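import Vale.Agent.P275BC.St

/-! Labelled charts and the Deodhar walk. -/

namespace P275BC

open Matrix Equiv HG

variable {n : ℕ} {ι κ : Type} {S : Set (ι → ℂ)} {lab : κ → Fin 3} {ψ : (ι → ℂ) → κ → ℂ}

/-- Coordinates labelled `0` vanish, those labelled `1` do not vanish, the others are free. -/
def Dm (lab : κ → Fin 3) : Set (κ → ℂ) :=
  {w | ∀ k, (lab k = 0 → w k = 0) ∧ (lab k = 1 → w k ≠ 0)}

/-- A labelled chart. -/
structure Ch (S : Set (ι → ℂ)) (lab : κ → Fin 3) (ψ : (ι → ℂ) → κ → ℂ) : Prop where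
  rψ : ∀ k, Reg S fun x => ψ x k
  mψ : ∀ x ∈ S, ψ x ∈ Dm lab
  ex : ∃ φ : (κ → ℂ) → ι → ℂ, (∀ i, Reg (Dm lab) fun w => φ w i) ∧
    (∀ w ∈ Dm lab, φ w ∈ S ∧ ψ (φ w) = w) ∧ ∀ x ∈ S, φ (ψ x) = x

/-- The torus coordinates. -/
def TG (lab : κ → Fin 3) (ψ : (ι → ℂ) → κ → ℂ) : Set ((ι → ℂ) → ℂ) :=
  {t | ∃ k, lab k = 1 ∧ t = fun x => ψ x k}

theorem Ch.mn (h : Ch S lab ψ) {k : κ} (hk : lab k = 1) : Mn S (TG lab ψ) fun x => ψ x k :=
  Mn.gen ⟨k, hk, rfl⟩ (h.rψ k) fun x hx => (h.mψ x hx k).2 hk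

theorem Ch.res (h : Ch S lab ψ) {lab' : κ → Fin 3} (hs : Dm lab' ⊆ Dm lab) :
    Ch {x ∈ S | ψ x ∈ Dm lab'} lab' ψ := by
  obtain ⟨φ, h1, h2, h3⟩ := h.ex
  exact ⟨fun k => (h.rψ k).mono fun _ hx => hx.1, fun _ hx => hx.2, φ, fun i => (h1 i).mono hs,
    fun w hw => ⟨⟨(h2 w (hs hw)).1, by rwa [(h2 w (hs hw)).2]⟩, (h2 w (hs hw)).2⟩,
    fun x hx => h3 x hx.1⟩

theorem Dm.upd [DecidableEq κ] {w : κ → ℂ} (hw : w ∈ Dm lab) {k : κ} (hk : lab k = 2) (c : ℂ) :
    Function.update w k c ∈ Dm lab := fun k' => by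
  by_cases e : k' = k
  · subst e; simp [hk]
  · rw [Function.update_of_ne e]; exact hw k'

theorem Reg.upd [DecidableEq κ] (h : ∀ k, Reg S fun x => ψ x k) {f : (ι → ℂ) → ℂ} (hf : Reg S f)
    (k k' : κ) : Reg S fun x => Function.update (ψ x) k (f x) k' := by
  by_cases e : k' = k
  · subst e; simpa using hf
  · simpa [Function.update_of_ne e] using h k'

theorem Ch.shift [DecidableEq κ] (h : Ch S lab ψ) {k : κ} (hk : lab k = 2) {r : (ι → ℂ) → ℂ}
    (hr : Reg S r) (hd : ∀ x ∈ S, ∀ x' ∈ S, (∀ k' ≠ k, ψ x k' = ψ x' k') → r x = r x') :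
    Ch S lab fun x => Function.update (ψ x) k (ψ x k + r x) := by
  obtain ⟨φ, h1, h2, h3⟩ := h.ex
  refine ⟨Reg.upd h.rψ ((h.rψ k).add hr) k, fun x hx => Dm.upd (h.mψ x hx) hk _,
    fun w => φ (Function.update w k (w k - r (φ w))), fun i => ?_, fun w hw => ?_, fun x hx => ?_⟩
  · exact (h1 i).comp (Reg.upd (ψ := fun w => w) Reg.coord ((Reg.coord k).sub
      (hr.comp h1 fun w hw => (h2 w hw).1)) k) fun w hw => Dm.upd hw hk _
  · obtain ⟨a, b⟩ := h2 _ (Dm.upd hw hk (w k - r (φ w)))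
    refine ⟨a, ?_⟩
    rw [hd _ a _ (h2 w hw).1 fun k' e => by rw [b, (h2 w hw).2, Function.update_of_ne e], b]
    simp
  · obtain ⟨a, b⟩ := h2 _ (Dm.upd (h.mψ x hx) hk (ψ x k + r x))
    beta_reduce
    rw [hd _ a _ hx fun k' e => by rw [b, Function.update_of_ne e]]
    simp [h3 x hx]

theorem Ch.cell [Fintype κ] (h : Ch S lab ψ) : ∃ (a b : ℕ) (c : Cell S (Fin a) (Fin b)),
    a + 2 * b = ∑ k, (lab k).1 ∧ (∀ t ∈ TG lab ψ, c.Mon t) ∧ ∀ i, ∃ k, ∀ x, c.ψ x i = ψ x k := by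
  classical
  obtain ⟨φ, h1, h2, h3⟩ := h.ex
  let ea := Fintype.equivFin {k // lab k = 1}
  let eb := Fintype.equivFin {k // lab k = 2}
  let e : Fin _ ⊕ Fin _ → κ := Sum.elim (fun i => (ea.symm i).1) fun i => (eb.symm i).1
  let up : (Fin _ ⊕ Fin _ → ℂ) → κ → ℂ := fun w k =>
    if h : lab k = 1 then w (Sum.inl (ea ⟨k, h⟩)) else
      if h : lab k = 2 then w (Sum.inr (eb ⟨k, h⟩)) else 0
  have hu : ∀ w ∈ Tor _ _, up w ∈ Dm lab := fun w hw k =>
    ⟨fun e => by simp [up, e], fun e => by simpa [up, e] using hw _⟩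
  have ru : ∀ k, Reg (Tor _ _) fun w => up w k := fun k => by
    simp only [up]
    split_ifs
    exacts [Reg.coord _, Reg.coord _, Reg.const _]
  refine ⟨_, _, ⟨fun x i => ψ x (e i), fun w => φ (up w), fun i => h.rψ _,
    fun i => (h1 i).comp ru hu, fun x hx i => (h.mψ x hx _).2 (ea.symm i).2,
    fun w hw => (h2 _ (hu w hw)).1, fun x hx => ?_, fun w hw => ?_⟩, ?_, ?_, fun i => ⟨e i, fun _ => rfl⟩⟩
  · rw [← h3 x hx]
    congr 1
    funext k
    rw [h3 x hx]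
    simp only [up, e, Sum.elim_inl, Sum.elim_inr, symm_apply_apply]
    split_ifs with a b
    · rfl
    · rfl
    · exact ((h.mψ x hx k).1 (by omega)).symm
  · rw [(h2 _ (hu w hw)).2]
    funext i
    rcases i with i | i
    · simp [up, e, (ea.symm i).2]
    · simp [up, e, (eb.symm i).2]
  · rw [Fintype.card_subtype, Fintype.card_subtype, Finset.card_filter, Finset.card_filter,
      Finset.mul_sum, ← Finset.sum_add_distrib]
    refine Finset.sum_congr rfl fun k _ => ?_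
    generalize lab k = c
    revert c; decide
  · rintro _ ⟨k, hk, rfl⟩
    exact (Cell.Mon.coord (ea ⟨k, hk⟩)).congr fun x _ => by simp [e]

theorem chr_ne {ρ : Type} [Fintype ρ] (χ : ρ → ℤ) (τ : ρ → ℂˣ) : chr χ τ ≠ 0 := Units.ne_zero _

/-- The state of the walk; `P` is the set of pending coordinates. -/
structure WS (W : ι → Fin n → ℤ) (S : Set (ι → ℂ)) (lab : κ → Fin 3) (ψ : (ι → ℂ) → κ → ℂ)
    (P : Set κ) (y : (ι → ℂ) → Matrix (Fin n) (Fin n) ℂ) (γ : (((ι → ℂ) → ℂ) → K0) → HG n)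
    (v p : Perm (Fin n)) : Prop where
  ch : Ch S lab ψ
  stb : Stb W S
  si : ∀ k, ∃ χ, SI W S χ fun x => ψ x k
  st : St S (TG lab ψ) y γ p
  dep : ∀ x ∈ S, ∀ x' ∈ S, (∀ k ∉ P, ψ x k = ψ x' k) → y x = y x'
  ysi : ∀ τ, ∀ x ∈ S, diagonal (fun a => (τ a : ℂ)) * y x =
    y (actW W τ x) * diagonal fun a => (τ (v a) : ℂ)
  pen : ∀ k ∈ P, lab k = 2

/-- A refinement of a chart in which the coordinates of `Q` are processed. -/
structure Nx (S : Set (ι → ℂ)) (lab : κ → Fin 3) (ψ : (ι → ℂ) → κ → ℂ) (P Q : Set κ)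
    (S' : Set (ι → ℂ)) (lab' : κ → Fin 3) (ψ' : (ι → ℂ) → κ → ℂ) : Prop where
  sub : S' ⊆ S
  same : ∀ k ∉ Q, (∀ x, ψ' x k = ψ x k) ∧ lab' k = lab k
  ref : ∀ x ∈ S', ∀ x' ∈ S', (∀ k ∉ P \ Q, ψ' x k = ψ' x' k) → ∀ k ∉ P \ Q, ψ x k = ψ x' k

theorem Nx.tg {P Q : Set κ} {S' : Set (ι → ℂ)} {lab' : κ → Fin 3} {ψ' : (ι → ℂ) → κ → ℂ}
    (h : Nx S lab ψ P Q S' lab' ψ') (hQ : ∀ k ∈ Q, lab k = 2) : TG lab ψ ⊆ TG lab' ψ' := by
  rintro _ ⟨k, hk, rfl⟩
  have := h.same k fun e => by rw [hQ k e] at hk; exact absurd hk (by decide)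
  exact ⟨k, this.2.trans hk, funext fun x => (this.1 x).symm⟩

theorem Nx.trans {P Q Q' : Set κ} {S' S'' : Set (ι → ℂ)} {lab' lab'' : κ → Fin 3}
    {ψ' ψ'' : (ι → ℂ) → κ → ℂ} (h : Nx S lab ψ P Q S' lab' ψ')
    (k : Nx S' lab' ψ' (P \ Q) Q' S'' lab'' ψ'') : Nx S lab ψ P (Q ∪ Q') S'' lab'' ψ'' where
  sub := k.sub.trans h.sub
  same i hi := by
    have a := h.same i fun e => hi (Or.inl e)
    have b := k.same i fun e => hi (Or.inr e)
    exact ⟨fun x => (b.1 x).trans (a.1 x), b.2.trans a.2⟩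
  ref x hx x' hx' e i hi := by
    rw [← Set.sdiff_sdiff] at e hi
    have a := k.ref x hx x' hx' e
    by_cases q : i ∈ P \ Q
    · rw [← (h.same i q.2).1, ← (h.same i q.2).1, a i hi]
    · exact h.ref x (k.sub hx) x' (k.sub hx') (fun i' m => a i' fun t => m t.1) i q

variable {W : ι → Fin n → ℤ} {P : Set κ} {y : (ι → ℂ) → Matrix (Fin n) (Fin n) ℂ}
  {γ : (((ι → ℂ) → ℂ) → K0) → HG n} {v p : Perm (Fin n)}

theorem sum_upd [Fintype κ] [DecidableEq κ] {k : κ} (hk : lab k = 2) (c : Fin 3) :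
    ∑ i, (Function.update lab k c i).1 + 2 = ∑ i, (lab i).1 + c.1 := by
  rw [← Finset.add_sum_erase _ _ (Finset.mem_univ k), ← Finset.add_sum_erase _ _ (Finset.mem_univ k),
    Function.update_self, hk, Finset.sum_congr rfl fun i hi => by
      rw [Function.update_of_ne (Finset.ne_of_mem_erase hi)]]
  show _ = 2 + _ + _
  omega

theorem WS.step [Fintype κ] [DecidableEq κ] (h : WS W S lab ψ P y γ v p) (s : Sr n) {k : κ}
    (hk : k ∈ P) (hw : SI W S (Pi.single (v s.lo) 1 - Pi.single (v s.hi) 1) fun x => ψ x k) :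
    Pav (fun S' => ∃ lab' ψ' p', Nx S lab ψ P {k} S' lab' ψ' ∧
      WS W S' lab' ψ' (P \ {k}) (fun x => y x * XS s (ψ x k))
        (fun j => γ j * sj (XS s (j fun x => ψ x k))) (v * s.sw) p' ∧
      ∑ i, (lab' i).1 + 1 + inv p = ∑ i, (lab i).1 + inv p') S := by
  have ys : ∀ τ, ∀ x ∈ S, diagonal (fun a => (τ a : ℂ)) * (y x * XS s (ψ x k)) =
      y (actW W τ x) * XS s (ψ (actW W τ x) k) * diagonal fun a => (τ ((v * s.sw) a) : ℂ) :=
    fun τ x hx => by
      have := twist τ (ψ x) [(s, k)] (by simp) v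
      simp only [XL_cons, XL_nil, pL_cons, pL_nil, mul_one, wtL,
        Function.update_self] at this
      rw [← Matrix.mul_assoc, h.ysi τ x hx, Matrix.mul_assoc, this, Matrix.mul_assoc,
        show ψ (actW W τ x) k = _ from hw τ x hx]
  have dp : ∀ x ∈ S, ∀ x' ∈ S, (∀ i ∉ P \ {k}, ψ x i = ψ x' i) →
      y x * XS s (ψ x k) = y x' * XS s (ψ x' k) := fun x hx x' hx' e => by
    rw [h.dep x hx x' hx' fun i hi => e i fun t => hi t.1, e k fun t => t.2 rfl]
  rcases lt_or_gt_of_ne (p.injective.ne s.ne) with hp | hp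
  · refine Pav.one _ ⟨lab, ψ, p * s.sw, ⟨subset_rfl, fun _ _ => ⟨fun _ => rfl, rfl⟩,
      fun _ _ _ _ e => e⟩, ⟨h.ch, h.stb, h.si, h.st.up s (h.ch.rψ k) hp, dp, ys,
      fun i hi => h.pen i hi.1⟩, ?_⟩
    rw [inv_mul_sw p s hp]; omega
  obtain ⟨r, r1, r2, r3, r4⟩ := h.st.desc s (h.ch.rψ k) hp
  have rd : ∀ x ∈ S, ∀ x' ∈ S, (∀ i ∉ P, ψ x i = ψ x' i) → r x = r x' := fun x hx x' hx' e => by
    have := r2 x hx x' hx' 1 1 (by simp [h.dep x hx x' hx' e])
    simpa using this.symm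
  have hk2 := h.pen k hk
  have c1 := h.ch.shift hk2 r1 fun x hx x' hx' e => rd x hx x' hx' fun i hi =>
    e i fun t => hi (t ▸ hk)
  have fs : SI W S (Pi.single (v s.lo) 1 - Pi.single (v s.hi) 1) fun x => ψ x k + r x :=
    fun τ x hx => by
      have := hw τ x hx
      beta_reduce at this ⊢
      rw [this, r2 x hx _ (h.stb τ x hx) τ (fun a => τ (v a)) (h.ysi τ x hx), chr_root, mul_add]
  have key : ∀ (c : Fin 3) (S' : Set (ι → ℂ)) (p' : Perm (Fin n)), S' ⊆ S →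
      (∀ x ∈ S, x ∈ S' ↔ (c = 0 → ψ x k + r x = 0) ∧ (c = 1 → ψ x k + r x ≠ 0)) →
      (Ch S' (Function.update lab k c) (fun x => Function.update (ψ x) k (ψ x k + r x)) →
        TG lab ψ ⊆ TG (Function.update lab k c) (fun x => Function.update (ψ x) k (ψ x k + r x)) →
        St S' (TG (Function.update lab k c) fun x => Function.update (ψ x) k (ψ x k + r x))
          (fun x => y x * XS s (ψ x k)) (fun j => γ j * sj (XS s (j fun x => ψ x k))) p') →
      Nx S lab ψ P {k} S' (Function.update lab k c)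
        (fun x => Function.update (ψ x) k (ψ x k + r x)) ∧
      WS W S' (Function.update lab k c) (fun x => Function.update (ψ x) k (ψ x k + r x)) (P \ {k})
        (fun x => y x * XS s (ψ x k)) (fun j => γ j * sj (XS s (j fun x => ψ x k))) (v * s.sw) p' := by
    intro c S' p' hs e hst
    have nx : Nx S lab ψ P {k} S' (Function.update lab k c)
        (fun x => Function.update (ψ x) k (ψ x k + r x)) := by
      refine ⟨hs, fun i hi => ⟨fun x => Function.update_of_ne hi _ _, Function.update_of_ne hi _ _⟩,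
        fun x hx x' hx' q i hi => ?_⟩
      have q' : ∀ i ≠ k, i ∉ P \ {k} → ψ x i = ψ x' i := fun i a b => by
        simpa [Function.update_of_ne a] using q i b
      by_cases a : i = k
      · have := q k fun t => t.2 rfl
        simp only [Function.update_self] at this
        rw [rd x (hs hx) x' (hs hx') fun i hi => q' i (fun t => hi (t ▸ hk)) fun t => hi t.1] at this
        rw [a]; exact add_right_cancel this
      · exact q' i a hi
    have ch : Ch S' (Function.update lab k c) fun x => Function.update (ψ x) k (ψ x k + r x) := by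
      have := c1.res (lab' := Function.update lab k c) fun w hw i => by
        by_cases a : i = k
        · subst a; simp [hk2]
        · simpa [Function.update_of_ne a] using hw i
      have e2 : S' = {x ∈ S | Function.update (ψ x) k (ψ x k + r x) ∈
          Dm (Function.update lab k c)} := by
        ext x
        refine ⟨fun hx => ⟨hs hx, fun i => ?_⟩, fun hx => (e x hx.1).2 (by simpa using hx.2 k)⟩
        by_cases a : i = k
        · subst a; simpa using (e x (hs hx)).1 hx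
        · simpa [Function.update_of_ne a] using h.ch.mψ x (hs hx) i
      rwa [← e2] at this
    refine ⟨nx, ch, fun τ x hx => ?_, fun i => ?_, hst ch (nx.tg fun i hi => hi ▸ hk2),
      fun x hx x' hx' q => dp x (hs hx) x' (hs hx') (nx.ref x hx x' hx' q),
      fun τ x hx => ys τ x (hs hx), fun i hi => ?_⟩
    · have := fs τ x (hs hx)
      beta_reduce at this
      rw [e _ (h.stb τ x (hs hx)), this]
      simpa [chr_ne] using (e x (hs hx)).1 hx
    · by_cases a : i = k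
      · subst a
        exact ⟨_, fun τ x hx => by simpa using fs τ x (hs hx)⟩
      · obtain ⟨χ, q⟩ := h.si i
        exact ⟨χ, fun τ x hx => by simpa [Function.update_of_ne a] using q τ x (hs hx)⟩
    · rw [Function.update_of_ne hi.2]; exact h.pen i hi.1
  refine Pav.cutf ((h.ch.rψ k).add r1) (Pav.one _ ?_) (Pav.one _ ?_)
  · obtain ⟨a, b⟩ := key 1 {x ∈ S | ψ x k + r x ≠ 0} p (fun _ hx => hx.1)
      (fun x hx => by simp [hx]) fun ch tg => r4 _ (fun _ hx => hx.1) _ tg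
        ((ch.mn (k := k) (by simp)).congr (by simp))
    refine ⟨_, _, _, a, b, ?_⟩
    have := sum_upd hk2 1
    simp only [Fin.val_one] at this
    omega
  · obtain ⟨a, b⟩ := key 0 {x ∈ S | ψ x k + r x = 0} (p * s.sw) (fun _ hx => hx.1)
      (fun x hx => by simp [hx]) fun _ tg => (r3 _ (fun _ hx => hx.1) fun _ hx => hx.2).mono
        subset_rfl tg
    refine ⟨_, _, _, a, b, ?_⟩
    have := sum_upd hk2 0
    have e := inv_mul_sw (p * s.sw) s (by simpa using hp)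
    rw [mul_assoc, s.sw_mul_sw, mul_one] at e
    simp only [Fin.val_zero] at this
    omega

theorem WS.congr {P' : Set κ} {y' : (ι → ℂ) → Matrix (Fin n) (Fin n) ℂ}
    {γ' : (((ι → ℂ) → ℂ) → K0) → HG n} {v' : Perm (Fin n)} {w' : (((ι → ℂ) → ℂ) → K0) → ℂ}
    (h : WS W S lab ψ P y γ v p) (eP : P' = P) (ev : v' = v) (e : ∀ x ∈ S, y' x = y x)
    (hw : Lm S (TG lab ψ) w') (e' : ∀ j, Ctx S j → γ' j = γ j * cz (w' j)) :
    WS W S lab ψ P' y' γ' v' p := by
  subst eP ev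
  exact ⟨h.ch, h.stb, h.si, h.st.congr e hw e', fun x hx x' hx' q => by
    rw [e x hx, e x' hx', h.dep x hx x' hx' q], fun τ x hx => by
    rw [e x hx, e _ (h.stb τ x hx), h.ysi τ x hx], h.pen⟩

theorem WS.walk [Fintype κ] [DecidableEq κ] (l : List (Sr n × κ)) (hl : (l.map Prod.snd).Nodup) :
    ∀ {S : Set (ι → ℂ)} {lab : κ → Fin 3} {ψ : (ι → ℂ) → κ → ℂ} {P : Set κ}
      {y : (ι → ℂ) → Matrix (Fin n) (Fin n) ℂ} {γ : (((ι → ℂ) → ℂ) → K0) → HG n}
      {v p : Perm (Fin n)}, WS W S lab ψ P y γ v p → (∀ q ∈ l, q.2 ∈ P) →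
      (∀ q ∈ l, SI W S (wtL v l q.2) fun x => ψ x q.2) →
    Pav (fun S' => ∃ lab' ψ' p', Nx S lab ψ P {k | k ∈ l.map Prod.snd} S' lab' ψ' ∧
      WS W S' lab' ψ' (P \ {k | k ∈ l.map Prod.snd}) (fun x => y x * XL l (ψ x))
        (fun j => γ j * XH l fun k => j fun x => ψ x k) (v * pL l) p' ∧
      ∑ i, (lab' i).1 + l.length + inv p = ∑ i, (lab i).1 + inv p') S := by
  induction l with
  | nil =>
    intro S lab ψ P y γ v p h _ _
    exact Pav.one _ ⟨lab, ψ, p, ⟨subset_rfl, fun _ _ => ⟨fun _ => rfl, rfl⟩, fun _ _ _ _ e => e⟩,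
      h.congr (by simp) (by simp) (by simp) Lm.zero (by simp [cz_zero]), by simp⟩
  | cons q l ih =>
    intro S lab ψ P y γ v p h hP hw
    rw [List.map_cons, List.nodup_cons] at hl
    have ne : ∀ q' ∈ l, q'.2 ∉ ({q.2} : Set κ) := fun q' hq' e =>
      hl.1 ((show q'.2 = q.2 from e) ▸ List.mem_map_of_mem hq')
    refine (h.step q.1 (hP q (by simp)) (by simpa [wtL] using hw q (by simp))).bind ?_
    rintro S1 ⟨lab1, ψ1, p1, nx, ws, ct⟩
    have sm := fun q' hq' => (nx.same _ (ne q' hq')).1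
    refine (ih hl.2 ws (fun q' hq' => ⟨hP q' (by simp [hq']), ne q' hq'⟩) fun q' hq' τ x hx => ?_).mono ?_
    · have := hw q' (by simp [hq']) τ x (nx.sub hx)
      simpa only [wtL, Function.update_of_ne (ne q' hq'), sm q' hq'] using this
    rintro S2 ⟨lab2, ψ2, p2, nx2, ws2, ct2⟩
    have eQ : {k | k ∈ (q :: l).map Prod.snd} = {q.2} ∪ {k | k ∈ l.map Prod.snd} := by
      ext; simp
    refine ⟨lab2, ψ2, p2, eQ ▸ nx.trans nx2, ws2.congr (by rw [eQ, Set.sdiff_sdiff])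
      (by rw [pL_cons, mul_assoc]) (fun x _ => ?_) Lm.zero fun j _ => ?_, ?_⟩
    · rw [XL_cons, Matrix.mul_assoc, XL_congr fun q' hq' => sm q' hq' x]
    · rw [XH_cons, cz_zero, mul_one, mul_assoc,
        XH_congr (w := fun k => j fun x => ψ1 x k) (w' := fun k => j fun x => ψ x k)
          fun q' hq' => by simp only [sm q' hq']]
    · simp only [List.length_cons]; omega

theorem WS.bo (h : WS W S lab ψ P y γ v p) {F : (ι → ℂ) → Matrix (Fin n) (Fin n) ℂ}
    {v' : Perm (Fin n)} (hF : RM S F) (hu : ∀ x ∈ S, UT (F x))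
    (hm : ∀ a, Mn S (TG lab ψ) fun x => F x a a)
    (hd : ∀ x ∈ S, ∀ x' ∈ S, (∀ k ∉ P, ψ x k = ψ x' k) → F x = F x')
    (hs : ∀ τ, ∀ x ∈ S, diagonal (fun a => (τ (v a) : ℂ)) * F x =
      F (actW W τ x) * diagonal fun a => (τ (v' a) : ℂ)) :
    WS W S lab ψ P (fun x => y x * F x) (fun j => γ j * sj (jm j F)) v' p :=
  ⟨h.ch, h.stb, h.si, h.st.bo hF hu hm, fun x hx x' hx' q => by
    rw [h.dep x hx x' hx' q, hd x hx x' hx' q], fun τ x hx => by
    rw [← Matrix.mul_assoc, h.ysi τ x hx, Matrix.mul_assoc, hs τ x hx, Matrix.mul_assoc], h.pen⟩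

end P275BC
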