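import Vale.Agent.P275BC.Ext

/-! Words, inversions, the Bruhat paving as a proposition. -/

namespace P275BC

open Matrix Equiv HG Finset

variable {n : ℕ} {κ : Type} {K : Type} [CommRing K]

/-- Product of braid matrices along a word with indexed parameters. -/
def XL (l : List (Sr n × κ)) (w : κ → K) : Matrix (Fin n) (Fin n) K :=
  (l.map fun q => XS q.1 (w q.2)).prod

/-- The permutation of a word. -/
def pL (l : List (Sr n × κ)) : Perm (Fin n) := (l.map fun q => q.1.sw).prod

/-- The lifted product. -/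
noncomputable def XH (l : List (Sr n × κ)) (w : κ → K0) : HG n :=
  (l.map fun q => sj (XS q.1 (w q.2))).prod

@[simp] theorem XL_nil (w : κ → K) : XL ([] : List (Sr n × κ)) w = 1 := rfl
@[simp] theorem XL_cons (q : Sr n × κ) (l : List (Sr n × κ)) (w : κ → K) :
    XL (q :: l) w = XS q.1 (w q.2) * XL l w := by simp [XL]
@[simp] theorem XH_nil (w : κ → K0) : XH ([] : List (Sr n × κ)) w = 1 := rfl
@[simp] theorem XH_cons (q : Sr n × κ) (l : List (Sr n × κ)) (w : κ → K0) :
    XH (q :: l) w = sj (XS q.1 (w q.2)) * XH l w := by simp [XH]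
@[simp] theorem pL_nil : pL ([] : List (Sr n × κ)) = 1 := rfl
@[simp] theorem pL_cons (q : Sr n × κ) (l : List (Sr n × κ)) : pL (q :: l) = q.1.sw * pL l := by
  simp [pL]

theorem XL_congr {l : List (Sr n × κ)} {w w' : κ → K} (h : ∀ q ∈ l, w q.2 = w' q.2) :
    XL l w = XL l w' := by
  unfold XL; congr 1; exact List.map_congr_left fun q hq => by rw [h q hq]

theorem XH_congr {l : List (Sr n × κ)} {w w' : κ → K0} (h : ∀ q ∈ l, w q.2 = w' q.2) :
    XH l w = XH l w' := by
  unfold XH; congr 1; exact List.map_congr_left fun q hq => by rw [h q hq]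

theorem isUnit_XL (l : List (Sr n × κ)) (w : κ → K) : IsUnit (XL l w) := by
  induction l with
  | nil => simp
  | cons q l ih => rw [XL_cons]; exact (isUnit_XS _ _).mul ih

/-- Number of inversions. -/
def inv (p : Perm (Fin n)) : ℕ := #{q : Fin n × Fin n | q.1 < q.2 ∧ p q.2 < p q.1}

/-- Number of non inversions. -/
def non (p : Perm (Fin n)) : ℕ := #{q : Fin n × Fin n | q.1 < q.2 ∧ p q.1 < p q.2}

theorem inv_one : inv (1 : Perm (Fin n)) = 0 := by
  rw [inv, card_eq_zero, filter_eq_empty_iff]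
  exact fun q _ h => lt_asymm h.1 h.2

theorem inv_inv' (p : Perm (Fin n)) : inv p⁻¹ = inv p :=
  card_equiv ((Equiv.prodComm _ _).trans (Equiv.prodCongr p⁻¹ p⁻¹)) fun q => by
    simp [and_comm]

theorem inv_mul_sw (p : Perm (Fin n)) (s : Sr n) (h : p s.lo < p s.hi) :
    inv (p * s.sw) = inv p + 1 := by
  have h0 : (s.hi, s.lo) ∉ ({q | q.1 < q.2 ∧ p q.2 < p q.1} : Finset (Fin n × Fin n)) := by
    simp only [mem_filter, mem_univ, true_and, not_and]
    exact fun k => absurd k s.lt.not_gt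
  rw [inv, inv, ← card_insert_of_notMem h0]
  refine card_equiv (Equiv.prodCongr s.sw s.sw) fun q => ?_
  rw [mem_filter, mem_insert, mem_filter]
  simp only [mem_univ, true_and, Perm.mul_apply, prodCongr_apply, Prod.ext_iff,
    Prod.map_fst, Prod.map_snd]
  constructor
  · rintro ⟨h1, h2⟩
    by_cases e : q.1 = s.lo ∧ q.2 = s.hi
    · left; simp [e.1, e.2]
    · exact Or.inr ⟨s.sw_lt h1 e, h2⟩
  · rintro (⟨h1, h2⟩ | ⟨h1, h2⟩)
    · rw [h1, h2, ← s.sw_sw q.1, ← s.sw_sw q.2, h1, h2]
      exact ⟨by simpa using s.lt, h⟩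
    · refine ⟨?_, h2⟩
      have := s.sw_lt h1 fun e => lt_asymm h (by rwa [e.1, e.2] at h2)
      simpa using this

theorem inv_non (p : Perm (Fin n)) : 2 * inv p + 2 * non p + n = n ^ 2 := by
  have a1 : inv p + non p = #{q : Fin n × Fin n | q.1 < q.2} := by
    rw [inv, non, ← card_union_of_disjoint]
    · congr 1; ext q
      simp only [mem_union, mem_filter, mem_univ, true_and]
      refine ⟨fun h => h.elim (·.1) (·.1), fun h => ?_⟩
      rcases lt_or_gt_of_ne (p.injective.ne h.ne) with k | k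
      exacts [Or.inr ⟨h, k⟩, Or.inl ⟨h, k⟩]
    · rw [disjoint_filter]; exact fun q _ h k => lt_asymm h.2 k.2
  have a2 : #{q : Fin n × Fin n | q.1 < q.2} = #{q : Fin n × Fin n | q.2 < q.1} :=
    card_equiv (Equiv.prodComm _ _) fun q => by simp
  have a3 : #{q : Fin n × Fin n | q.1 = q.2} = n := by
    simp only [card_filter, Fintype.sum_prod_type]
    simp
  have a4 : #{q : Fin n × Fin n | q.1 < q.2} + #{q : Fin n × Fin n | q.2 < q.1} +
      #{q : Fin n × Fin n | q.1 = q.2} = n ^ 2 := by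
    simp only [card_filter, ← sum_add_distrib]
    rw [sum_congr rfl (g := fun _ => 1)]
    · simp [sq]
    · intro q _
      rcases lt_trichotomy q.1 q.2 with k | k | k
      · simp [k, k.not_gt, k.ne]
      · simp [k]
      · simp [k, k.not_gt, k.ne']
  omega

/-- Weights of the parameters of a word. -/
def wtL [DecidableEq κ] : Perm (Fin n) → List (Sr n × κ) → κ → Fin n → ℤ
  | _, [] => 0
  | v, q :: l => Function.update (wtL (v * q.1.sw) l) q.2
      (Pi.single (v q.1.lo) 1 - Pi.single (v q.1.hi) 1)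

theorem chr_add {ρ : Type} [Fintype ρ] (χ χ' : ρ → ℤ) (τ : ρ → ℂˣ) :
    chr (χ + χ') τ = chr χ τ * chr χ' τ := by
  simp only [chr, Pi.add_apply, _root_.zpow_add, prod_mul_distrib, Units.val_mul]

theorem chr_root (a b : Fin n) (τ : Fin n → ℂˣ) :
    chr (Pi.single a 1 - Pi.single b 1) τ = τ a * ((τ b : ℂ))⁻¹ := by
  have : ∀ c : Fin n, ∏ e, τ e ^ (Pi.single c 1 : Fin n → ℤ) e = τ c := fun c => by
    rw [prod_eq_single c] <;> simp +contextual
  simp only [chr, Pi.sub_apply, _root_.zpow_sub, prod_mul_distrib, prod_inv_distrib, this,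
    Units.val_mul, Units.val_inv_eq_inv_val]

theorem twist [DecidableEq κ] (τ : Fin n → ℂˣ) (w : κ → ℂ) (l : List (Sr n × κ))
    (hl : (l.map Prod.snd).Nodup) (v : Perm (Fin n)) :
    diagonal (fun a => (τ (v a) : ℂ)) * XL l w =
      XL l (fun k => chr (wtL v l k) τ * w k) * diagonal fun a => (τ ((v * pL l) a) : ℂ) := by
  induction l generalizing v with
  | nil => simp
  | cons q l ih =>
    rw [List.map_cons, List.nodup_cons] at hl
    rw [XL_cons, XL_cons, pL_cons, ← mul_assoc v, Matrix.mul_assoc,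
      XL_congr (w := fun k => chr (wtL v (q :: l) k) τ * w k)
        (w' := fun k => chr (wtL (v * q.1.sw) l k) τ * w k), ← ih hl.2, XS, XS,
      ← Matrix.mul_assoc, ← Matrix.mul_assoc, diag_tv (r := chr (wtL v (q :: l) q.2) τ * w q.2),
      Matrix.mul_assoc _ (diagonal _), diag_pm]
    · simp only [Matrix.mul_assoc, Perm.mul_apply]
    · simp only [wtL, Function.update_self, chr_root]; field_simp
    · intro q' hq'
      have : q'.2 ≠ q.2 := fun e => hl.1 (e ▸ List.mem_map_of_mem hq')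
      simp only [wtL, Function.update_of_ne this]

/-- The matrix with entries `x`. -/
def mx (x : Fin n × Fin n → ℂ) : Matrix (Fin n) (Fin n) ℂ := of fun a b => x (a, b)

/-- What is used of a reduced word. -/
structure BW (l : List (Sr n × κ)) : Prop where
  nd : (l.map Prod.snd).Nodup
  len : l.length = inv (pL l)
  uni : ∀ w : κ → ℂ, Uni (XL l w * pm ℂ (pL l)⁻¹)
  lift : ∀ w : κ → K0, XH l w = sj (XL l w)
  uniq : ∀ (w w' : κ → ℂ) (b : Matrix (Fin n) (Fin n) ℂ), UT b → XL l w * b = XL l w' →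
    ∀ q ∈ l, w q.2 = w' q.2

/-- The Bruhat cell of a word, with regular parameters. -/
def BStr (l : List (Sr n × κ)) (S : Set (Fin n × Fin n → ℂ)) : Prop :=
  S = {x | (mx x).det ≠ 0 ∧ ∃ w, UT ((XL l w)⁻¹ * mx x)} ∧
    ∃ Z : (Fin n × Fin n → ℂ) → κ → ℂ, (∀ k, Reg S fun x => Z x k) ∧
      ∀ x ∈ S, UT ((XL l (Z x))⁻¹ * mx x)

/-- The Bruhat paving. -/
def BRU : Prop :=
  ∀ n : ℕ, Pav (fun S => ∃ l : List (Sr n × (Fin n × Fin n)), BW l ∧ BStr l S)
    {x | (mx x).det ≠ 0}

end P275BC
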